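import Vale.Agent.P302.Defs
import Vale.Agent.Lib.PCP.NPDefs

/-! Bin packing: the additive gap problem and additive approximation of the optimum. -/

namespace Vale.Agent.P302H

open Vale.Agent.P302 Vale.Agent.Lib.NP

/-- The binary code of a positive rational number: numerator and denominator in lowest terms. -/
def ratW (r : ℚ) : List Bool := pairW r.num.natAbs.bits r.den.bits

/-- The binary code of a list of item sizes. -/
def sizesW (L : List ℚ) : List Bool := listW (L.map ratW)

/-- All item sizes lie in the open interval `(1/4, 1/2)`. -/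
def Medium (L : List ℚ) : Prop := ∀ q ∈ L, 1 / 4 < q ∧ q < 1 / 2

/-- Given a list `L` of item sizes in `(1/4, 1/2)` and a number `B`, it is NP-hard to distinguish
`OPT ≤ B` from `OPT > B + c`. -/
def GapHard (c : ℕ) : Prop :=
  NPHard (fun x : List ℚ × ℕ => pairW (sizesW x.1) x.2.bits)
    (fun x => Medium x.1 ∧ OPT x.1.get ≤ x.2) (fun x => Medium x.1 ∧ x.2 + c < OPT x.1.get)

/-- Some polynomial time algorithm outputs, for every list of item sizes in `(1/4, 1/2)`, a number
`k` (in binary) with `OPT ≤ k ≤ OPT + c`. -/
def HasAdditive (c : ℕ) : Prop :=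
  ∃ A : List Bool → List Bool, PolyTime id id A ∧ ∀ L : List ℚ, Medium L →
    ∃ k : ℕ, A (sizesW L) = k.bits ∧ OPT L.get ≤ k ∧ k ≤ OPT L.get + c

end Vale.Agent.P302H
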