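import Mathlib.Tactic

/-!
P302, additive hardness: the generator of the instances. A node is a triple
(left end `a`, own length `e`, length item `s`); its right end is `a + e`.
-/

namespace Vale.Agent.P302H

open Finset

/-- nodes -/
abbrev Nd : Type := ℕ × ℕ × ℕ

/-- a node whose length item is long (`3 e`) or short (`e`) -/
def nd (a e : ℕ) (b : Bool) : Nd := (a, e, bif b then 3 * e else e)

/-- `k` nodes in a row, each followed by a substructure -/
def row (k α η : ℕ) (pl : ℕ → Bool) (sub : ℕ → List Nd) : List Nd :=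
  (List.range k).flatMap fun i => nd (α + 2 * i * η) η (pl i) :: sub i

/-- the two parents of the group `γ` -/
def par (n γ : ℕ) (b : Bool) : ℕ := bif b then γ / n else γ / n / n * n + γ % n

/-- ratio between the scales of consecutive groups -/
def rB (m Ω : ℕ) : ℕ := Ω ^ (2 * m) * (2 * m + 1)

/-- size of a cell -/
def cl (G m Ω u : ℕ) : ℕ := u * rB m Ω ^ G

/-- scale of the upper nodes -/
def e1 (G m Ω u : ℕ) : ℕ := 2 * G * cl G m Ω u

/-- scale of the nodes of the group `γ` -/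
def e2 (m Ω u γ : ℕ) : ℕ := u * rB m Ω ^ γ * Ω ^ (2 * m)

/-- start of a cell -/
def cs (n G m Ω u α γ : ℕ) (b : Bool) : ℕ :=
  α + (2 * par n γ b + 1) * e1 G m Ω u + (2 * γ + b.toNat) * cl G m Ω u

/-- unit of a copy -/
def un (m Ω u γ : ℕ) (b : Bool) (i : ℕ) : ℕ := u * rB m Ω ^ γ * Ω ^ (b.toNat * m + i)

/-- start of a copy -/
def st (n G m Ω u α γ : ℕ) (b : Bool) (i : ℕ) : ℕ :=
  cs n G m Ω u α γ b + (2 * i + 1) * e2 m Ω u γ

/-- the nodes of the group `γ` under its parent `par n γ b`, with the copies below them -/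
def run (n G m Ω u α : ℕ) (P2 : ℕ → Bool → Bool) (g : ℕ → ℕ → List Nd) (γ : ℕ) (b : Bool) :
    List Nd :=
  row m (cs n G m Ω u α γ b) (e2 m Ω u γ) (fun _ => P2 γ b)
    fun i => g (un m Ω u γ b i) (st n G m Ω u α γ b i)

/-- one stage -/
def stage (n N G m Ω u α : ℕ) (P1 : ℕ → Bool) (P2 : ℕ → Bool → Bool) (g : ℕ → ℕ → List Nd) :
    List Nd :=
  row N α (e1 G m Ω u) P1 (fun _ => []) ++
    (List.range G).flatMap fun γ => run n G m Ω u α P2 g γ true ++ run n G m Ω u α P2 g γ false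

/-- number of copies of the graph -/
def pQ (J T : ℕ) : ℕ := T + J + 1
/-- number of upper nodes -/
def pN (n J T : ℕ) : ℕ := pQ J T * n
/-- number of groups -/
def pG (n J T : ℕ) : ℕ := pN n J T * n
/-- length of a run -/
def pM (n J T : ℕ) : ℕ := T + 2 * J * pG n J T + 2 * J + 1
/-- robustness of the copies -/
def pT (n J T : ℕ) : ℕ := T + 2 * J * pG n J T + 2 * J * pM n J T

/-- ratio between the length of the region of a stage and its unit -/
def rO (N G m Ω : ℕ) : ℕ := (2 * N + 1) * (2 * G * rB m Ω ^ G)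

/-- ratio between the length of the region and the unit -/
def om (n J : ℕ) : ℕ → ℕ → ℕ
  | 0, _ => 1
  | h + 1, T => rO (pN n J T) (pG n J T) (pM n J T) (om n J h (pT n J T))

/-- the structure of depth `h`, robustness `T`, unit `u`, starting at `α` -/
def gen (n J : ℕ) (P1 : ℕ → Bool) (P2 : ℕ → Bool → Bool) : ℕ → ℕ → ℕ → ℕ → List Nd
  | 0, _, _, _ => []
  | h + 1, T, u, α => stage n (pN n J T) (pG n J T) (pM n J T) (om n J h (pT n J T)) u α P1 P2
      (gen n J P1 P2 h (pT n J T))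

/-! ### Counting -/

theorem cnt_flatMap (P : Nd → Bool) (k : ℕ) (F : ℕ → List Nd) :
    ((List.range k).flatMap F).countP P = ∑ i ∈ range k, (F i).countP P := by
  induction k with
  | zero => simp
  | succ k ih => rw [List.range_succ, List.flatMap_append, List.countP_append, ih,
      sum_range_succ]; simp

theorem cnt_row (P : Nd → Bool) (k α η : ℕ) (pl : ℕ → Bool) (sub : ℕ → List Nd) :
    (row k α η pl sub).countP P =
      ∑ i ∈ range k, ((P (nd (α + 2 * i * η) η (pl i))).toNat + (sub i).countP P) := by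
  rw [row, cnt_flatMap]
  refine sum_congr rfl fun i _ => ?_
  rw [List.countP_cons]
  cases P (nd (α + 2 * i * η) η (pl i)) <;> simp [Nat.add_comm]

theorem cnt_stage (P : Nd → Bool) (n N G m Ω u α : ℕ) (P1 : ℕ → Bool) (P2 : ℕ → Bool → Bool)
    (g : ℕ → ℕ → List Nd) : (stage n N G m Ω u α P1 P2 g).countP P =
      (row N α (e1 G m Ω u) P1 (fun _ => [])).countP P + ∑ γ ∈ range G,
        ((run n G m Ω u α P2 g γ true).countP P + (run n G m Ω u α P2 g γ false).countP P) := by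
  rw [stage, List.countP_append, cnt_flatMap]
  simp only [List.countP_append]

/-! ### Geometry -/

/-- all nodes lie in `[α, α + l]` and have scale at least `u` -/
def Ins (u l α : ℕ) (X : List Nd) : Prop :=
  ∀ x ∈ X, α ≤ x.1 ∧ x.1 + 3 * x.2.1 ≤ α + l ∧ u ≤ x.2.1 ∧ x.2.1 ≤ x.2.2 ∧ x.2.2 ≤ 3 * x.2.1

theorem Ins.mono {u l α u' l' α' : ℕ} {X : List Nd} (h : Ins u l α X) (hu : u' ≤ u) (ha : α' ≤ α)
    (hl : α + l ≤ α' + l') : Ins u' l' α' X := fun x hx => by
  have := h x hx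
  omega

theorem ins_row {k α η u : ℕ} {pl : ℕ → Bool} {sub : ℕ → List Nd} (hu : u ≤ η)
    (h : ∀ i < k, Ins u η (α + (2 * i + 1) * η) (sub i)) :
    Ins u ((2 * k + 1) * η) α (row k α η pl sub) := by
  intro x hx
  simp only [row, List.mem_flatMap, List.mem_range, List.mem_cons] at hx
  obtain ⟨i, hi, hx⟩ := hx
  have h1 : (i + 1) * η ≤ k * η := Nat.mul_le_mul_right _ hi
  rcases hx with rfl | hx
  · simp only [nd]
    cases pl i <;> simp <;> refine ⟨by nlinarith, ?_⟩ <;> omega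
  · obtain ⟨a1, a2, a3, a4, a5⟩ := h i hi x hx
    refine ⟨by nlinarith, by nlinarith, a3, a4, a5⟩

section

variable {n N G m Ω u α : ℕ}

theorem rB_pos (hΩ : 0 < Ω) : 0 < rB m Ω := by unfold rB; positivity

theorem un_mul_le (hΩ : 0 < Ω) {γ i : ℕ} {b : Bool} (hi : i < m) :
    un m Ω u γ b i * Ω ≤ e2 m Ω u γ := by
  rw [un, e2, mul_assoc, ← pow_succ]
  refine Nat.mul_le_mul_left _ (Nat.pow_le_pow_right hΩ ?_)
  cases b <;> simp <;> omega

theorem base_le_un (hΩ : 0 < Ω) {γ i : ℕ} {b : Bool} : u * rB m Ω ^ γ ≤ un m Ω u γ b i :=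
  Nat.le_mul_of_pos_right _ (by positivity)

theorem base_le_e2 (hΩ : 0 < Ω) {γ : ℕ} : u * rB m Ω ^ γ ≤ e2 m Ω u γ :=
  Nat.le_mul_of_pos_right _ (by positivity)

theorem span_eq (γ : ℕ) : (2 * m + 1) * e2 m Ω u γ = u * rB m Ω ^ (γ + 1) := by
  rw [e2, pow_succ, rB]; ring

theorem base_mono (hΩ : 0 < Ω) {γ γ' : ℕ} (h : γ ≤ γ') : u * rB m Ω ^ γ ≤ u * rB m Ω ^ γ' :=
  Nat.mul_le_mul_left _ (Nat.pow_le_pow_right (rB_pos hΩ) h)

theorem par_lt {Q γ : ℕ} (hγ : γ < Q * n * n) (b : Bool) : par n γ b < Q * n := by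
  have hn : 0 < n := Nat.pos_of_ne_zero fun h => by simp [h] at hγ
  have h1 : γ / n < Q * n := (Nat.div_lt_iff_lt_mul hn).2 hγ
  cases b
  · have h2 : γ / n / n < Q := (Nat.div_lt_iff_lt_mul hn).2 h1
    have h3 : (γ / n / n + 1) * n ≤ Q * n := Nat.mul_le_mul_right _ h2
    have h4 := Nat.mod_lt γ hn
    simp only [par, cond_false]
    nlinarith
  · exact h1

/-- the cell lies in the region below its parent -/
theorem cell_in {γ : ℕ} (hγ : γ < G) (b : Bool) :
    α + (2 * par n γ b + 1) * e1 G m Ω u ≤ cs n G m Ω u α γ b ∧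
      cs n G m Ω u α γ b + cl G m Ω u ≤ α + (2 * par n γ b + 2) * e1 G m Ω u := by
  have h1 : (2 * γ + b.toNat + 1) * cl G m Ω u ≤ 2 * G * cl G m Ω u :=
    Nat.mul_le_mul_right _ (by cases b <;> simp <;> omega)
  refine ⟨Nat.le_add_right _ _, ?_⟩
  rw [cs]
  have h2 : e1 G m Ω u = 2 * G * cl G m Ω u := rfl
  nlinarith

variable {P1 : ℕ → Bool} {P2 : ℕ → Bool → Bool} {g : ℕ → ℕ → List Nd}

theorem ins_run (hΩ : 0 < Ω) (hg : ∀ u α, Ins u (u * Ω) α (g u α)) (γ : ℕ) (b : Bool) :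
    Ins (u * rB m Ω ^ γ) (u * rB m Ω ^ (γ + 1)) (cs n G m Ω u α γ b)
      (run n G m Ω u α P2 g γ b) := by
  rw [← span_eq]
  refine ins_row (base_le_e2 hΩ) fun i hi => (hg _ _).mono (base_le_un hΩ) le_rfl ?_
  exact Nat.add_le_add_left (un_mul_le hΩ hi) _

theorem ins_run' (hΩ : 0 < Ω) (hg : ∀ u α, Ins u (u * Ω) α (g u α)) {γ : ℕ} (hγ : γ < G)
    (b : Bool) : Ins u (cl G m Ω u) (cs n G m Ω u α γ b) (run n G m Ω u α P2 g γ b) := by
  refine (ins_run hΩ hg γ b).mono ?_ le_rfl (Nat.add_le_add_left (base_mono hΩ hγ) _)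
  simpa using base_mono (u := u) (m := m) hΩ (Nat.zero_le γ)

theorem cl_le_e1 (hG : 0 < G) : cl G m Ω u ≤ e1 G m Ω u :=
  Nat.le_mul_of_pos_left _ (by omega)

theorem u_le_cl (hΩ : 0 < Ω) : u ≤ cl G m Ω u := by
  simpa [cl] using base_mono (u := u) (m := m) hΩ (Nat.zero_le G)

theorem rO_eq : u * rO N G m Ω = (2 * N + 1) * e1 G m Ω u := by
  rw [rO, e1, cl]; ring

theorem ins_stage {Q : ℕ} (hΩ : 0 < Ω) (hG : 0 < G) (hN : N = Q * n) (hGN : G = N * n)
    (hg : ∀ u α, Ins u (u * Ω) α (g u α)) :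
    Ins u (u * rO N G m Ω) α (stage n N G m Ω u α P1 P2 g) := by
  rw [rO_eq]
  intro x hx
  rcases List.mem_append.1 hx with hx | hx
  · exact ins_row ((u_le_cl hΩ).trans (cl_le_e1 hG)) (fun _ _ _ h => by simp at h) x hx
  · simp only [List.mem_flatMap, List.mem_range, List.mem_append] at hx
    obtain ⟨γ, hγ, hx⟩ := hx
    have key : ∀ b, Ins u ((2 * N + 1) * e1 G m Ω u) α (run n G m Ω u α P2 g γ b) := by
      intro b
      have h1 := cell_in (n := n) (m := m) (Ω := Ω) (u := u) (α := α) hγ b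
      have h2 : par n γ b < N := hN ▸ par_lt (by rw [← hN, ← hGN]; exact hγ) b
      have h3 : (2 * par n γ b + 2) * e1 G m Ω u ≤ (2 * N + 1) * e1 G m Ω u :=
        Nat.mul_le_mul_right _ (by omega)
      exact (ins_run' hΩ hg hγ b).mono le_rfl (by omega) (by omega)
    rcases hx with hx | hx
    exacts [key _ x hx, key _ x hx]

end

theorem pG_pos {n : ℕ} (hn : 0 < n) (J T : ℕ) : 0 < pG n J T := by
  unfold pG pN pQ; positivity

theorem om_pos {n : ℕ} (hn : 0 < n) (J : ℕ) : ∀ h T, 0 < om n J h T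
  | 0, _ => one_pos
  | h + 1, T => by
    have h1 := pG_pos hn J T
    have h2 := rB_pos (m := pM n J T) (om_pos hn J h (pT n J T))
    rw [om, rO]; positivity

theorem ins_gen {n : ℕ} (hn : 0 < n) (J : ℕ) (P1 : ℕ → Bool) (P2 : ℕ → Bool → Bool) :
    ∀ h T u α, Ins u (u * om n J h T) α (gen n J P1 P2 h T u α)
  | 0, _, _, _ => fun _ h => by simp [gen] at h
  | h + 1, T, _, _ => ins_stage (Q := pQ J T) (om_pos hn J h _) (pG_pos hn J T) rfl rfl
      (ins_gen hn J P1 P2 h _)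

end Vale.Agent.P302H
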