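import Vale.Agent.P302H.Sat

/-!
P302, additive hardness: the instance of a formula is computed in polynomial time.
-/

namespace Vale.Agent.P302H

open Vale.Agent.Lib.PolyTime Vale.Agent.Lib.PCP

namespace Poly

section

variable {α : Type} [Enc α] {n N G m Ω u a γ i k η T : α → ℕ}

theorem pt_row {pl : α → ℕ → Bool} {sub : α → ℕ → List Nd} (hk : PT ∅ k) (hk' : PBd k)
    (ha : PT ∅ a) (hη : PT ∅ η) (hpl : PT ∅ fun p : α × ℕ => pl p.1 p.2)
    (hsub : PT ∅ fun p : α × ℕ => sub p.1 p.2) :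
    PT ∅ fun x => row (k x) (a x) (η x) (pl x) (sub x) :=
  PT.flatMap (PT.range hk hk') (PT.cons
    (((ha.comp PT.fst').add (((PT.const 2).mul PT.snd').mul (hη.comp PT.fst'))).pair
      ((hη.comp PT.fst').pair (PT.cond hpl ((PT.const 3).mul (hη.comp PT.fst'))
        (hη.comp PT.fst')))) hsub)

theorem pt_par (hn : PT ∅ n) (hγ : PT ∅ γ) (b : Bool) : PT ∅ fun x => par (n x) (γ x) b := by
  cases b
  · exact (((hγ.div hn).div hn).mul hn).add (hγ.mod hn)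
  · exact hγ.div hn

theorem pt_rB (hm : PT ∅ m) (hm' : PBd m) (hΩ : PT ∅ Ω) : PT ∅ fun x => rB (m x) (Ω x) :=
  (hΩ.pow ((PT.const 2).mul hm) ((PBd.const 2).mul hm')).mul (((PT.const 2).mul hm).add (PT.const 1))

theorem pt_cl (hG : PT ∅ G) (hG' : PBd G) (hm : PT ∅ m) (hm' : PBd m) (hΩ : PT ∅ Ω) (hu : PT ∅ u) :
    PT ∅ fun x => cl (G x) (m x) (Ω x) (u x) := hu.mul ((pt_rB hm hm' hΩ).pow hG hG')

theorem pt_e1 (hG : PT ∅ G) (hG' : PBd G) (hm : PT ∅ m) (hm' : PBd m) (hΩ : PT ∅ Ω) (hu : PT ∅ u) :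
    PT ∅ fun x => e1 (G x) (m x) (Ω x) (u x) :=
  ((PT.const 2).mul hG).mul (pt_cl hG hG' hm hm' hΩ hu)

theorem pt_stage {P1 : α → ℕ → Bool} {P2 : α → ℕ → Bool → Bool} {g : α → ℕ → ℕ → List Nd}
    (hn : PT ∅ n) (hN : PT ∅ N) (hN' : PBd N) (hG : PT ∅ G) (hG' : PBd G) (hm : PT ∅ m)
    (hm' : PBd m) (hΩ : PT ∅ Ω) (hu : PT ∅ u) (ha : PT ∅ a)
    (h1 : PT ∅ fun p : α × ℕ => P1 p.1 p.2) (h2 : ∀ b, PT ∅ fun p : α × ℕ => P2 p.1 p.2 b)
    (hg : PT ∅ fun p : α × ℕ × ℕ => g p.1 p.2.1 p.2.2) :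
    PT ∅ fun x => stage (n x) (N x) (G x) (m x) (Ω x) (u x) (a x) (P1 x) (P2 x) (g x) := by
  have f1 : PT ∅ fun p : α × ℕ => p.1 := PT.fst'
  have f2 : PT ∅ fun p : (α × ℕ) × ℕ => p.1.1 := PT.fst'.fst
  -- the index of the group is truncated, in order to bound it
  have hγ : PT ∅ fun p : α × ℕ => min p.2 (G p.1) := PT.min PT.snd' (hG.comp f1)
  have hγ' : PBd fun p : α × ℕ => min p.2 (G p.1) := (hG'.comp f1).mono fun _ => min_le_right _ _
  have hi : PT ∅ fun p : (α × ℕ) × ℕ => min p.2 (m p.1.1) := PT.min PT.snd' (hm.comp f2)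
  have hi' : PBd fun p : (α × ℕ) × ℕ => min p.2 (m p.1.1) :=
    (hm'.comp f2).mono fun _ => min_le_right _ _
  have hb : PT ∅ fun p : α × ℕ => u p.1 * rB (m p.1) (Ω p.1) ^ min p.2 (G p.1) :=
    (hu.comp f1).mul (((pt_rB hm hm' hΩ).comp f1).pow hγ hγ')
  have he : PT ∅ fun p : α × ℕ => e2 (m p.1) (Ω p.1) (u p.1) (min p.2 (G p.1)) :=
    hb.mul ((hΩ.pow ((PT.const 2).mul hm) ((PBd.const 2).mul hm')).comp f1)
  have hcs : ∀ b, PT ∅ fun p : α × ℕ =>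
      cs (n p.1) (G p.1) (m p.1) (Ω p.1) (u p.1) (a p.1) (min p.2 (G p.1)) b := fun b =>
    ((ha.comp f1).add ((((PT.const 2).mul (pt_par (hn.comp f1) hγ b)).add (PT.const 1)).mul
      ((pt_e1 hG hG' hm hm' hΩ hu).comp f1))).add
      ((((PT.const 2).mul hγ).add (PT.const b.toNat)).mul ((pt_cl hG hG' hm hm' hΩ hu).comp f1))
  have hun : ∀ b, PT ∅ fun p : (α × ℕ) × ℕ =>
      un (m p.1.1) (Ω p.1.1) (u p.1.1) (min p.1.2 (G p.1.1)) b (min p.2 (m p.1.1)) := fun b =>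
    (hb.comp PT.fst').mul ((hΩ.comp f2).pow (((PT.const b.toNat).mul (hm.comp f2)).add hi)
      (((PBd.const b.toNat).mul (hm'.comp f2)).add hi'))
  have hst : ∀ b, PT ∅ fun p : (α × ℕ) × ℕ => st (n p.1.1) (G p.1.1) (m p.1.1) (Ω p.1.1) (u p.1.1)
      (a p.1.1) (min p.1.2 (G p.1.1)) b (min p.2 (m p.1.1)) := fun b =>
    ((hcs b).comp PT.fst').add ((((PT.const 2).mul hi).add (PT.const 1)).mul (he.comp PT.fst'))
  have hrun : ∀ b, PT ∅ fun p : α × ℕ => run (n p.1) (G p.1) (m p.1) (Ω p.1) (u p.1) (a p.1)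
      (P2 p.1) (g p.1) (min p.2 (G p.1)) b := fun b => by
    refine (pt_row (pl := fun p _ => P2 p.1 (min p.2 (G p.1)) b) (sub := fun p i => g p.1
      (un (m p.1) (Ω p.1) (u p.1) (min p.2 (G p.1)) b (min i (m p.1)))
      (st (n p.1) (G p.1) (m p.1) (Ω p.1) (u p.1) (a p.1) (min p.2 (G p.1)) b (min i (m p.1))))
      (hm.comp f1) (hm'.comp f1) (hcs b) he (((h2 b).comp (f1.pair hγ)).comp PT.fst')
      (hg.comp (f2.pair ((hun b).pair (hst b))))).congr fun p => ?_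
    refine List.flatMap_congr fun i hi => ?_
    simp only [min_eq_left (List.mem_range.1 hi).le]
  refine (PT.append (pt_row (sub := fun _ _ => []) hN hN' ha (pt_e1 hG hG' hm hm' hΩ hu) h1
    (PT.const [])) (PT.flatMap (f := fun x γ => run (n x) (G x) (m x) (Ω x) (u x) (a x) (P2 x) (g x)
      (min γ (G x)) true ++ run (n x) (G x) (m x) (Ω x) (u x) (a x) (P2 x) (g x) (min γ (G x)) false)
      (PT.range hG hG') ((hrun true).append (hrun false)))).congr fun x => ?_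
  refine congrArg _ (List.flatMap_congr fun γ hγ => ?_)
  rw [min_eq_left (List.mem_range.1 hγ).le]

theorem pt_par5 (J : ℕ) (hn : PT ∅ n ∧ PBd n) (hT : PT ∅ T ∧ PBd T) :
    ((PT ∅ fun x => pN (n x) J (T x)) ∧ PBd fun x => pN (n x) J (T x)) ∧
    ((PT ∅ fun x => pG (n x) J (T x)) ∧ PBd fun x => pG (n x) J (T x)) ∧
    ((PT ∅ fun x => pM (n x) J (T x)) ∧ PBd fun x => pM (n x) J (T x)) ∧
    ((PT ∅ fun x => pT (n x) J (T x)) ∧ PBd fun x => pT (n x) J (T x)) := by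
  have a1 : PT ∅ fun x => pN (n x) J (T x) := ((hT.1.add (PT.const J)).add (PT.const 1)).mul hn.1
  have b1 : PBd fun x => pN (n x) J (T x) := ((hT.2.add (PBd.const J)).add (PBd.const 1)).mul hn.2
  have a2 : PT ∅ fun x => pG (n x) J (T x) := a1.mul hn.1
  have b2 : PBd fun x => pG (n x) J (T x) := b1.mul hn.2
  have a3 : PT ∅ fun x => pM (n x) J (T x) :=
    ((hT.1.add ((PT.const (2 * J)).mul a2)).add (PT.const (2 * J))).add (PT.const 1)
  have b3 : PBd fun x => pM (n x) J (T x) :=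
    ((hT.2.add ((PBd.const (2 * J)).mul b2)).add (PBd.const (2 * J))).add (PBd.const 1)
  exact ⟨⟨a1, b1⟩, ⟨a2, b2⟩, ⟨a3, b3⟩,
    (hT.1.add ((PT.const (2 * J)).mul a2)).add ((PT.const (2 * J)).mul a3),
    (hT.2.add ((PBd.const (2 * J)).mul b2)).add ((PBd.const (2 * J)).mul b3)⟩

theorem pt_om (J : ℕ) (hn : PT ∅ n ∧ PBd n) : ∀ (h : ℕ) {T : α → ℕ}, PT ∅ T ∧ PBd T →
    PT ∅ fun x => om (n x) J h (T x)
  | 0, _, _ => PT.const 1
  | h + 1, _, hT => by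
    obtain ⟨a1, a2, a3, a4⟩ := pt_par5 J hn hT
    exact (((PT.const 2).mul a1.1).add (PT.const 1)).mul (((PT.const 2).mul a2.1).mul
      ((pt_rB a3.1 a3.2 (pt_om J hn h a4)).pow a2.1 a2.2))

end

theorem pt_gen (J : ℕ) : ∀ (h : ℕ) {α : Type} [Enc α] {n T u a : α → ℕ} {P1 : α → ℕ → Bool}
    {P2 : α → ℕ → Bool → Bool}, PT ∅ n ∧ PBd n → PT ∅ T ∧ PBd T → PT ∅ u → PT ∅ a →
    (PT ∅ fun p : α × ℕ => P1 p.1 p.2) → (∀ b, PT ∅ fun p : α × ℕ => P2 p.1 p.2 b) →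
    PT ∅ fun x => gen (n x) J (P1 x) (P2 x) h (T x) (u x) (a x)
  | 0, _, _, _, _, _, _, _, _, _, _, _, _, _, _ => PT.const []
  | h + 1, α, _, n, T, _, _, P1, P2, hn, hT, hu, ha, h1, h2 => by
    obtain ⟨a1, a2, a3, a4⟩ := pt_par5 J hn hT
    have f1 : PT ∅ fun p : α × ℕ × ℕ => p.1 := PT.fst'
    exact pt_stage (g := fun x => gen (n x) J (P1 x) (P2 x) h (pT (n x) J (T x))) hn.1 a1.1 a1.2
      a2.1 a2.2 a3.1 a3.2 (pt_om J hn h a4) hu ha h1 h2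
      (pt_gen J h (α := α × ℕ × ℕ) (P1 := fun p => P1 p.1) (P2 := fun p => P2 p.1)
        ⟨hn.1.comp f1, hn.2.comp f1⟩ ⟨a4.1.comp f1, a4.2.comp f1⟩ PT.snd'.fst PT.snd'.snd
        (h1.comp (PT.fst'.fst.pair PT.snd')) fun b => (h2 b).comp (PT.fst'.fst.pair PT.snd'))

theorem pt_n : (PT ∅ fun φ : CNF => 3 * (φ.length + 1)) ∧ PBd fun φ : CNF => 3 * (φ.length + 1) :=
  ⟨(PT.const 3).mul (PT.id.length.add (PT.const 1)),
    (PBd.const 3).mul ((PBd.length (A := ∅) PT.id).add (PBd.const 1))⟩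

theorem pt_litG {α : Type} [Enc α] {φ : α → CNF} {p : α → ℕ} (hφ : PT ∅ φ) (hp : PT ∅ p) :
    PT ∅ fun x => litG (φ x) (p x) := by
  have h1 : PT ∅ fun x => (taut :: φ x).getD (p x / 3 % ((φ x).length + 1)) taut :=
    PT.getD ((PT.const taut).cons hφ) ((hp.div (PT.const 3)).mod (hφ.length.add (PT.const 1)))
      (PT.const taut)
  have h2 : PT ∅ fun x => p x % 3 := hp.mod (PT.const 3)
  exact PT.ite (h2.eqNat (PT.const 0)) h1.fst (PT.ite (h2.eqNat (PT.const 1)) h1.snd.fst h1.snd.snd)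

theorem pt_s2 (b : Bool) : PT ∅ fun p : CNF × ℕ => s2 p.1 p.2 b := by
  have hu := pt_par (pt_n.1.comp (PT.fst' (β := ℕ))) PT.snd' true
  have hv := pt_par (pt_n.1.comp (PT.fst' (β := ℕ))) PT.snd' false
  have h1 := pt_litG PT.fst' hu
  have h2 := pt_litG PT.fst' hv
  exact (PT.const b).and ((((hu.div (PT.const 3)).eqNat (hv.div (PT.const 3))).and
    (hu.eqNat hv).not).or ((h1.fst.eqNat h2.fst).and (h1.snd.xor h2.snd)))

end Poly

open Poly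

theorem pt_iU (c : ℕ) : PT ∅ fun φ : CNF => iU (3 * (φ.length + 1)) c :=
  (PT.const 1).add ((PT.const 1).mul (pt_om _ pt_n _ ⟨PT.const _, PBd.const _⟩))

theorem pt_iZ (c : ℕ) : PT ∅ fun φ : CNF => iZ (3 * (φ.length + 1)) c s1 (s2 φ) :=
  PT.append (PT.replicate (PT.const _) (PBd.const _)
    ((PT.const 0).pair ((pt_iU c).pair (PT.const 0))))
    (pt_gen _ _ (P1 := fun _ => s1) pt_n ⟨PT.const _, PBd.const _⟩ (PT.const 1) (PT.const 1)
      ((PT.snd'.mod (PT.const 3)).eqNat (PT.const 0)) pt_s2)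

end Vale.Agent.P302H
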