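import Vale.Agent.P302H.Defs
import Vale.Agent.P302H.Poly
import Vale.Agent.Lib.PCP.NPBridge

/-!
P302, additive hardness: the textbook statements.
-/

namespace Vale.Agent.P302H

open Vale.Agent.P302 Vale.Agent.Lib.PolyTime Vale.Agent.Lib.PCP Vale.Agent.Lib.NP

/-- a fraction in lowest terms -/
def red (a b : ℕ) : ℕ × ℕ := (a / Nat.gcd a b, b / Nat.gcd a b)

theorem ratW_div (a : ℕ) {b : ℕ} (hb : 0 < b) : ratW ((a : ℚ) / b) = enc (red a b) := by
  have hg : 0 < Nat.gcd a b := Nat.gcd_pos_of_pos_right _ hb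
  have hc := Nat.coprime_div_gcd_div_gcd hg
  have hb' : 0 < b / Nat.gcd a b := Nat.div_pos (Nat.gcd_le_right _ hb) hg
  have e : (a : ℚ) / b = ((a / Nat.gcd a b : ℕ) : ℤ) / ((b / Nat.gcd a b : ℕ) : ℤ) := by
    have hg' : (Nat.gcd a b : ℚ) ≠ 0 := by exact_mod_cast hg.ne'
    rw [Int.cast_natCast, Int.cast_natCast, Nat.cast_div (Nat.gcd_dvd_left a b) hg',
      Nat.cast_div (Nat.gcd_dvd_right a b) hg', div_div_div_cancel_right₀ hg']
  have h1 := Rat.num_div_eq_of_coprime (a := ((a / Nat.gcd a b : ℕ) : ℤ))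
    (b := ((b / Nat.gcd a b : ℕ) : ℤ)) (by exact_mod_cast hb') (by simpa only [Int.natAbs_natCast])
  have h2 := Rat.den_div_eq_of_coprime (a := ((a / Nat.gcd a b : ℕ) : ℤ))
    (b := ((b / Nat.gcd a b : ℕ) : ℤ)) (by exact_mod_cast hb') (by simpa only [Int.natAbs_natCast])
  rw [ratW, e, h1, Int.natAbs_natCast, Nat.cast_injective h2, pairW_eq_pr]
  rfl

/-- the data of the code of the items -/
def dat (U : ℕ) (Z : List Nd) : List (ℕ × ℕ) :=
  Z.map (fun x => red (10 * U + x.1) (39 * U)) ++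
    (Z.map (fun x => red (13 * U - (x.1 + x.2.1)) (39 * U)) ++
      Z.map fun x => red (16 * U + x.2.2) (39 * U))

theorem sizesW_items {U : ℕ} {Z : List Nd} (hU : 0 < U) (h : ∀ x ∈ Z, x.1 + x.2.1 ≤ U) :
    sizesW (items U Z) = enc (dat U Z) := by
  have hU' : (U : ℚ) ≠ 0 := by exact_mod_cast hU.ne'
  rw [sizesW, ← listW_map_enc, items, dat]
  simp only [List.map_append, List.map_map]
  congr 2
  · refine List.map_congr_left fun x _ => ?_
    simp only [Function.comp]
    rw [← ratW_div _ (by omega)]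
    congr 1
    push_cast
    field_simp
  congr 1
  · refine List.map_congr_left fun x hx => ?_
    simp only [Function.comp]
    rw [← ratW_div _ (by omega), Nat.cast_sub (by have := h x hx; omega)]
    congr 1
    push_cast
    field_simp
  · refine List.map_congr_left fun x _ => ?_
    simp only [Function.comp]
    rw [← ratW_div _ (by omega)]
    congr 1
    push_cast
    field_simp

theorem pt_red {α : Type} [Enc α] {a b : α → ℕ} (ha : PT ∅ a) (hb : PT ∅ b) :
    PT ∅ fun x => red (a x) (b x) := (ha.div (ha.gcd hb)).pair (hb.div (ha.gcd hb))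

theorem pt_dat {α : Type} [Enc α] {U : α → ℕ} {Z : α → List Nd} (hU : PT ∅ U) (hZ : PT ∅ Z) :
    PT ∅ fun x => dat (U x) (Z x) := by
  have h1 : ∀ k : ℕ, PT ∅ fun p : α × Nd => k * U p.1 := fun k =>
    (PT.const k).mul (hU.comp PT.fst')
  exact (PT.map hZ (pt_red ((h1 10).add PT.snd'.fst) (h1 39))).append
    ((PT.map hZ (pt_red ((h1 13).sub (PT.snd'.fst.add PT.snd'.snd.fst)) (h1 39))).append
      (PT.map hZ (pt_red ((h1 16).add PT.snd'.snd.snd) (h1 39))))

theorem sizesW_iL {n : ℕ} (hn : 0 < n) (c : ℕ) (P1 : ℕ → Bool) (P2 : ℕ → Bool → Bool) :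
    sizesW (iL n c P1 P2) = enc (dat (iU n c) (iZ n c P1 P2)) :=
  sizesW_items (by unfold iU; omega) fun x hx => by
    rcases Top.mem_top hx with rfl | h
    · simp
    · have := ins_gen hn _ _ _ _ _ _ _ x h
      unfold iU
      omega

theorem gapHard (c : ℕ) : GapHard c := by
  have hcode : ∀ φ : CNF, pairW (sizesW (iL (3 * (φ.length + 1)) c s1 (s2 φ)))
      (iZ (3 * (φ.length + 1)) c s1 (s2 φ)).length.bits =
      enc (dat (iU (3 * (φ.length + 1)) c) (iZ (3 * (φ.length + 1)) c s1 (s2 φ)),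
        (iZ (3 * (φ.length + 1)) c s1 (s2 φ)).length) := fun φ => by
    rw [sizesW_iL (by omega), pairW_eq_pr]; rfl
  exact Hard.npHard (Q := SAT3) (Red.refl _) _ _ _ _
    ((pt_dat (pt_iU c) (pt_iZ c)).pair (pt_iZ c).length)
    (fun φ h => ⟨(_, _), hcode φ, iL_bounds (by omega) c, sat_yes h c⟩)
    fun φ h => ⟨(_, _), hcode φ, iL_bounds (by omega) c, iL_no (by omega) c (sat_no h)⟩

theorem no_additive {c : ℕ} (h : HasAdditive c) {L : Set (List Bool)} (hL : InNP L) : InP L := by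
  obtain ⟨A, hA, hA'⟩ := h
  have hw : PT ∅ fun φ : CNF => val (A (enc
      (dat (iU (3 * (φ.length + 1)) c) (iZ (3 * (φ.length + 1)) c s1 (s2 φ))))) := by
    obtain ⟨D, hD, hD'⟩ := pt_dat (pt_iU c) (pt_iZ c)
    have : PT ∅ fun φ : CNF => Raw.mk (A (enc
        (dat (iU (3 * (φ.length + 1)) c) (iZ (3 * (φ.length + 1)) c s1 (s2 φ))))) :=
      ⟨fun x => A (D x), (polyTime_id_iff.1 hA).comp hD, fun φ => congrArg A (hD' φ)⟩
    exact PT.rawVal this
  obtain ⟨B, hB, hB'⟩ := PT.le hw ((pt_iZ c).length.add (PT.const c))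
  have key : ∀ φ : CNF, ∃ k, OPT (iL (3 * (φ.length + 1)) c s1 (s2 φ)).get ≤ k ∧
      k ≤ OPT (iL (3 * (φ.length + 1)) c s1 (s2 φ)).get + c ∧
      (B (enc φ) = [true] ↔ k ≤ (iZ (3 * (φ.length + 1)) c s1 (s2 φ)).length + c) := fun φ => by
    obtain ⟨k, e, h1, h2⟩ := hA' _ (iL_bounds (P1 := s1) (P2 := s2 φ)
      (show 0 < 3 * (φ.length + 1) by omega) c)
    refine ⟨k, h1, h2, ?_⟩
    rw [sizesW_iL (by omega)] at e
    rw [hB']
    beta_reduce
    rw [e, val_bits, enc_bool, List.cons.injEq, and_iff_left rfl, decide_eq_true_eq]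
  refine Hard.inP_of_decides (Q := SAT3) (Red.refl _) hB (fun φ h => ?_) (fun φ h => ?_) hL
  · obtain ⟨k, -, h2, h3⟩ := key φ
    have := sat_yes h c
    exact h3.2 (by omega)
  · obtain ⟨k, h1, -, h3⟩ := key φ
    have := iL_no (by omega) c (sat_no h)
    exact fun e => by have := h3.1 e; omega

end Vale.Agent.P302H
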