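import Vale.Agent.P302H.Top

/-!
P302, additive hardness: the instances, the instance with a large gap, and its size.
-/

namespace Vale.Agent.P302H

open Finset Vale.Agent.P302

/-- the scale of the instance -/
def iU (n c : ℕ) : ℕ := 1 + 1 * om n (36 * c + 3) (18 * c + 2) (36 * c + 2)

/-- the nodes of the instance -/
def iZ (n c : ℕ) (P1 : ℕ → Bool) (P2 : ℕ → Bool → Bool) : List Nd :=
  top (18 * c + 2) (iU n c) (gen n (36 * c + 3) P1 P2 (18 * c + 2) (36 * c + 2) 1 1)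

/-- the instance -/
def iL (n c : ℕ) (P1 : ℕ → Bool) (P2 : ℕ → Bool → Bool) : List ℚ := items (iU n c) (iZ n c P1 P2)

section

variable {n : ℕ} (hn : 0 < n) (c : ℕ) {P1 P1' : ℕ → Bool} {P2 P2' : ℕ → Bool → Bool}
include hn

theorem iL_bounds : ∀ q ∈ iL n c P1 P2, 1 / 4 < q ∧ q < 1 / 2 :=
  top_bounds (ins_gen hn _ _ _ _ _ _ _) le_rfl

theorem iL_no (hno : HNo n P1 P2) : (iZ n c P1 P2).length + c < OPT (iL n c P1 P2).get :=
  opt_gt (ins_gen hn _ _ _ _ _ _ _) le_rfl (fun t => cD_gen _ _ _ hn t _ _ _ _)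
    (noP_gen hn _ hno _ _ _ _ one_pos) (by omega) (by omega) (by omega)

theorem iL_yes (h1 : ∀ Q, (List.range (Q * n)).countP P1 ≤ (List.range (Q * n)).countP P1')
    (h2 : ∀ γ, (P2 γ true).toNat + (P2 γ false).toNat ≤ (P2' γ true).toNat + (P2' γ false).toNat)
    (H : ∀ γ b, (P1' (par n γ b)).toNat + (P2' γ b).toNat ≤ 1) :
    OPT (iL n c P1 P2).get ≤ (iZ n c P1 P2).length :=
  opt_le (map_gen _ P1' P1 P2' P2 Prod.mk _ _ _ _) (ins_gen hn _ _ _ _ _ _ _)
    (ins_gen hn _ _ _ _ _ _ _) le_rfl (fun y => cA_gen _ _ _ _ _ h1 h2 y _ _ _ _) fun t => by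
      have := cL_gen (36 * c + 3) P1' P1' P2' P2' hn (fun γ b => by have := H γ b; omega) t
        (18 * c + 2) (36 * c + 2) 1 1
      omega

theorem iL_lp (h1 : ∀ Q, (List.range (Q * n)).countP P1 ≤ (List.range (Q * n)).countP P1')
    (h2 : ∀ γ, (P2 γ true).toNat + (P2 γ false).toNat ≤ (P2' γ true).toNat + (P2' γ false).toNat)
    (H : ∀ γ b, (P1 (par n γ b)).toNat + (P2 γ b).toNat +
      ((P1' (par n γ b)).toNat + (P2' γ b).toNat) ≤ 2) :
    Cov Bool (iL n c P1 P2).get (iZ n c P1 P2).length :=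
  cov_two (map_gen _ P1' P1 P2' P2 Prod.mk _ _ _ _) (ins_gen hn _ _ _ _ _ _ _)
    (ins_gen hn _ _ _ _ _ _ _) le_rfl (fun y => cA_gen _ _ _ _ _ h1 h2 y _ _ _ _) fun t =>
      cL_gen _ _ _ _ _ hn H t _ _ _ _

theorem par_pair {u v : ℕ} (h : u / n = v / n) :
    par n (u * n + v % n) true = u ∧ par n (u * n + v % n) false = v := by
  have h1 : (u * n + v % n) / n = u := by
    rw [Nat.add_comm, Nat.add_mul_div_right _ _ hn, Nat.div_eq_of_lt (Nat.mod_lt _ hn), zero_add]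
  refine ⟨h1, ?_⟩
  simp only [par, cond_false]
  rw [h1, h, Nat.mul_add_mod_self_right, Nat.mod_mod, Nat.div_add_mod']

theorem pair_lt {u v K : ℕ} (h : u < K) : u * n + v % n < K * n := by
  have h1 := Nat.mod_lt v hn
  have h2 : (u + 1) * n ≤ K * n := Nat.mul_le_mul_right _ h
  nlinarith

end

/-! ### The instance with a large gap -/

/-- the upper selection of the gap instance -/
def g1 (p : ℕ) : Bool := decide (p % 4 < 2)

/-- the lower selection of the gap instance -/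
def g2 (γ : ℕ) (b : Bool) : Bool := b && decide (par 4 γ true ≠ par 4 γ false)

theorem cnt_g1 (Q : ℕ) : (List.range (Q * 4)).countP g1 = 2 * Q ∧
    (List.range (Q * 4)).countP (fun p => !g1 p) = 2 * Q := by
  induction Q with
  | zero => simp
  | succ Q ih =>
    have e : (Q + 1) * 4 = Q * 4 + 1 + 1 + 1 + 1 := by ring
    have a0 : g1 (Q * 4) = true := by simp [g1]
    have a1 : g1 (Q * 4 + 1) = true := by simp only [g1, decide_eq_true_eq]; omega
    have a2 : g1 (Q * 4 + 1 + 1) = false := by simp only [g1, decide_eq_false_iff_not]; omega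
    have a3 : g1 (Q * 4 + 1 + 1 + 1) = false := by simp only [g1, decide_eq_false_iff_not]; omega
    simp only [e, List.range_succ, List.countP_append, ih, List.countP_singleton, a0, a1, a2, a3]
    simp
    omega

theorem hno_g : HNo 4 g1 g2 := by
  intro Q C hC h
  rw [(cnt_g1 Q).1] at h
  obtain ⟨u, hu, v, hv, hne, he⟩ := exists_ne_map_eq_of_card_lt_of_maps_to (s := C) (t := range Q)
    (f := fun u => u / 4) (by rw [card_range]; omega) fun u hu => by
      have := mem_range.1 (hC hu)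
      simp only [coe_range, Set.mem_Iio]
      omega
  have h1 := par_pair (by norm_num) he
  refine ⟨u * 4 + v % 4, pair_lt (by norm_num) (mem_range.1 (hC hu)), fun b => ?_, true, ?_⟩
  · cases b
    · rw [h1.2]; exact hv
    · rw [h1.1]; exact hu
  · simp [g2, h1.1, h1.2, hne]

theorem gap_lp (c : ℕ) : Cov Bool (iL 4 c g1 g2).get (iZ 4 c g1 g2).length :=
  iL_lp (by norm_num) c (P1' := fun p => !g1 p) (P2' := fun γ b => g2 γ !b)
    (fun Q => by rw [(cnt_g1 Q).1, (cnt_g1 Q).2]) (fun γ => by simp [Nat.add_comm]) fun γ b => by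
      simp only [g2]
      cases g1 (par 4 γ b) <;> cases b <;> cases decide (par 4 γ true ≠ par 4 γ false) <;> simp

theorem length_row {k a η L : ℕ} {pl : ℕ → Bool} {sub : ℕ → List Nd}
    (h : ∀ i, 1 + (sub i).length ≤ L) : (row k a η pl sub).length ≤ k * L := by
  have := cnt_row (fun _ => true) k a η pl sub
  simp only [List.countP_true, Bool.toNat_true] at this
  rw [this]
  simpa using sum_le_card_nsmul (range k) _ L fun i _ => h i

theorem length_gen {J : ℕ} (hJ : 1 ≤ J) (P1 : ℕ → Bool) (P2 : ℕ → Bool → Bool) : ∀ h T u α,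
    1 + (gen 4 J P1 P2 h T u α).length ≤ ((101 * J ^ 2) ^ h * (T + J + 1)) ^ (2 * h)
  | 0, _, _, _ => by simp [gen]
  | h + 1, T, u, α => by
    have ih := length_gen hJ P1 P2 h (pT 4 J T)
    set L := ((101 * J ^ 2) ^ h * (pT 4 J T + J + 1)) ^ (2 * h) with hL
    have a1 := cnt_stage (fun _ => true) 4 (pN 4 J T) (pG 4 J T) (pM 4 J T)
      (om 4 J h (pT 4 J T)) u α P1 P2 (gen 4 J P1 P2 h (pT 4 J T))
    simp only [List.countP_true] at a1
    have a2 := length_row (k := pN 4 J T) (a := α) (pl := P1) (sub := fun _ => []) (L := 1)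
      (η := e1 (pG 4 J T) (pM 4 J T) (om 4 J h (pT 4 J T)) u) fun _ => le_rfl
    have a3 : ∀ γ b, (run 4 (pG 4 J T) (pM 4 J T) (om 4 J h (pT 4 J T)) u α P2
        (gen 4 J P1 P2 h (pT 4 J T)) γ b).length ≤ pM 4 J T * L := fun γ b =>
      length_row fun _ => ih _ _
    have a4 := sum_le_card_nsmul (range (pG 4 J T)) _ (pM 4 J T * L + pM 4 J T * L)
      fun γ _ => Nat.add_le_add (a3 γ true) (a3 γ false)
    rw [card_range, smul_eq_mul] at a4
    have hL1 : 1 ≤ L := le_trans (Nat.le_add_right _ _) (ih 0 0)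
    obtain ⟨q, hq⟩ : ∃ q, q = T + J + 1 := ⟨_, rfl⟩
    have b1 : pN 4 J T = 4 * q := by rw [pN, pQ, hq]; ring
    have b2 : pG 4 J T = 16 * q := by rw [pG, b1]; ring
    have b0 : q ≤ J * q := Nat.le_mul_of_pos_left _ hJ
    have b3 : pM 4 J T ≤ 34 * (J * q) := by rw [pM, b2]; nlinarith
    have b4 : pT 4 J T + J + 1 ≤ 101 * J ^ 2 * q := by
      have c1 : J * q ≤ J * (J * q) := Nat.mul_le_mul_left _ b0
      have c2 := Nat.mul_le_mul_left (2 * J) b3
      rw [pT, b2]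
      nlinarith
    have b5 : L ≤ ((101 * J ^ 2) ^ (h + 1) * q) ^ (2 * h) := by
      rw [hL, pow_succ _ h, mul_assoc ((101 * J ^ 2) ^ h)]
      exact Nat.pow_le_pow_left (Nat.mul_le_mul_left _ b4) _
    have b6 : 101 * (J * q) ≤ (101 * J ^ 2) ^ (h + 1) * q := by
      have c1 : 101 * J ^ 2 ≤ (101 * J ^ 2) ^ (h + 1) := Nat.le_self_pow (by omega) _
      have c2 : J ≤ J ^ 2 := Nat.le_self_pow (by omega) _
      rw [← mul_assoc]
      exact Nat.mul_le_mul_right _ (le_trans (by omega) c1)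
    have hq1 : 1 ≤ q := by omega
    have b7 : 1 + (4 * q + 16 * q * (pM 4 J T * L + pM 4 J T * L)) ≤ (101 * (J * q)) ^ 2 * L := by
      have c1 : pM 4 J T * L ≤ 34 * (J * q) * L := Nat.mul_le_mul_right _ b3
      have c2 : 16 * q * (pM 4 J T * L + pM 4 J T * L) ≤ 16 * (J * q) * (68 * (J * q) * L) :=
        Nat.mul_le_mul (by omega) (by nlinarith)
      have c3 : J * q ≤ (J * q) ^ 2 := Nat.le_self_pow (by omega) _
      have c4 : (J * q) ^ 2 ≤ (J * q) ^ 2 * L := Nat.le_mul_of_pos_right _ hL1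
      nlinarith
    rw [gen, a1, ← hq, show 2 * (h + 1) = 2 + 2 * h by ring, pow_add]
    refine le_trans ?_ (le_trans b7 (Nat.mul_le_mul (Nat.pow_le_pow_left b6 _) b5))
    refine Nat.add_le_add_left (Nat.add_le_add (a2.trans (by omega)) (a4.trans ?_)) 1
    rw [b2]

theorem opt_le_card {n : ℕ} (a : Fin n → ℚ) (h0 : ∀ i, 0 ≤ a i) (h1 : ∀ i, a i ≤ 1) : OPT a ≤ n :=
  opt_le_of_cover a h0 (fun i => {i}) (fun i => by simpa using h1 i) fun i => ⟨i, by simp⟩

theorem length_gap {c : ℕ} (hc : 2 ≤ c) : (iL 4 c g1 g2).length ≤ c ^ (20000 * c ^ 2) := by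
  have a1 := length_gen (J := 36 * c + 3) (by omega) g1 g2 (18 * c + 2) (36 * c + 2) 1 1
  have a2 : (iL 4 c g1 g2).length = 3 * (18 * c + 2 +
      (gen 4 (36 * c + 3) g1 g2 (18 * c + 2) (36 * c + 2) 1 1).length) := by
    simp only [iL, items, iZ, top, List.length_append, List.length_map, List.length_replicate]
    ring
  have p : ∀ k, 2 ^ k ≤ c ^ k := fun k => Nat.pow_le_pow_left hc k
  have b1 : 101 * (36 * c + 3) ^ 2 ≤ c ^ 20 := by
    have := p 18
    calc 101 * (36 * c + 3) ^ 2 ≤ 2 ^ 18 * c ^ 2 := by nlinarith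
      _ ≤ c ^ 18 * c ^ 2 := Nat.mul_le_mul_right _ this
      _ = c ^ 20 := by ring
  have b2 : 36 * c + 2 + (36 * c + 3) + 1 ≤ c ^ 8 := by
    have := p 7
    calc _ ≤ 2 ^ 7 * c := by omega
      _ ≤ c ^ 7 * c := Nat.mul_le_mul_right _ this
      _ = c ^ 8 := by ring
  have b3 : ((101 * (36 * c + 3) ^ 2) ^ (18 * c + 2) * (36 * c + 2 + (36 * c + 3) + 1)) ^
      (2 * (18 * c + 2)) ≤ c ^ ((20 * (18 * c + 2) + 8) * (2 * (18 * c + 2))) := by
    rw [pow_mul c, pow_add c, pow_mul c]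
    exact Nat.pow_le_pow_left (Nat.mul_le_mul (Nat.pow_le_pow_left b1 _) b2) _
  have b4 : 3 * (18 * c + 2) ≤ c ^ 8 := le_trans (by omega) b2
  calc (iL 4 c g1 g2).length ≤ 3 * (18 * c + 2) *
        (1 + (gen 4 (36 * c + 3) g1 g2 (18 * c + 2) (36 * c + 2) 1 1).length) := by
        rw [a2]; nlinarith
    _ ≤ c ^ 8 * c ^ ((20 * (18 * c + 2) + 8) * (2 * (18 * c + 2))) :=
        Nat.mul_le_mul b4 (a1.trans b3)
    _ ≤ c ^ (20000 * c ^ 2) := by
        rw [← pow_add]
        exact Nat.pow_le_pow_right (by omega) (by nlinarith)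

/-- an instance with gap more than `c` and of size at most `c ^ (20000 c ^ 2)` -/
theorem exists_gap_size {c : ℕ} (hc : 2 ≤ c) : ∃ (L : List ℚ) (N : ℕ),
    (∀ q ∈ L, 1 / 4 < q ∧ q < 1 / 2) ∧ Cov Bool L.get N ∧ N + c < OPT L.get ∧
      L.length ≤ c ^ (20000 * c ^ 2) :=
  ⟨iL 4 c g1 g2, _, iL_bounds (by norm_num) c, gap_lp c, iL_no (by norm_num) c hno_g,
    length_gap hc⟩

end Vale.Agent.P302H
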