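import Vale.Agent.P302H.Gen

/-!
P302, additive hardness: soundness of the generator.
-/

namespace Vale.Agent.P302H

open Finset

/-- number of intervals `[a, a + f a)` which contain `t` -/
def cv (f : ℕ → ℕ) (t : ℕ) (X : List Nd) : ℕ := X.countP fun x => decide (x.1 ≤ t ∧ t < x.1 + f x.1)

/-- number of length items of size at least `y` -/
def cA (y : ℕ) (X : List Nd) : ℕ := X.countP fun x => decide (y ≤ x.2.2)

/-- number of left ends which got a length at least `y` -/
def cF (f : ℕ → ℕ) (y : ℕ) (X : List Nd) : ℕ := X.countP fun x => decide (y ≤ f x.1)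

/-- number of intervals which start before `a` and reach `b` -/
def cP (f : ℕ → ℕ) (a b : ℕ) (X : List Nd) : ℕ := X.countP fun x => decide (x.1 < a ∧ b ≤ x.1 + f x.1)

/-- every assignment of lengths which is almost complete covers some point `2 h` times -/
def NoP (J T h u l α : ℕ) (X : List Nd) : Prop :=
  ∀ f : ℕ → ℕ, (∀ t, cv f t X ≤ J) → (∀ y, u ≤ y → cA y X ≤ cF f y X + T) →
    ∃ t, α ≤ t ∧ t < α + l ∧ 2 * h ≤ cv f t X

namespace No

theorem cnt_union {P R : Nd → Bool} {S : ℕ → Nd → Bool} {k : ℕ} {Y : List Nd}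
    (h : ∀ x ∈ Y, P x = true → R x = true ∨ ∃ p < k, S p x = true) :
    Y.countP P ≤ Y.countP R + ∑ p ∈ range k, Y.countP (S p) := by
  induction Y with
  | nil => simp
  | cons x Y ih =>
    have h1 := ih fun z hz => h z (List.mem_cons_of_mem _ hz)
    simp only [List.countP_cons, sum_add_distrib]
    by_cases hP : P x = true
    · rcases h x List.mem_cons_self hP with h2 | ⟨p, hp, h2⟩
      · simp only [hP, h2, if_true]; omega
      · have h3 : (if S p x = true then 1 else 0) ≤ ∑ p ∈ range k, if S p x = true then 1 else 0 :=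
          single_le_sum (f := fun p => if S p x = true then 1 else 0) (fun _ _ => Nat.zero_le _)
            (mem_range.2 hp)
        simp only [hP, h2, if_true] at h3 ⊢
        omega
    · simp only [hP]; simp only [Bool.false_eq_true, if_false]; omega

theorem cnt_split {P Q R : Nd → Bool} {Y : List Nd}
    (h : ∀ x ∈ Y, (P x = true → R x = true) ∧ (Q x = true → R x = true) ∧
      ¬ (P x = true ∧ Q x = true)) : Y.countP P + Y.countP Q ≤ Y.countP R := by
  induction Y with
  | nil => simp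
  | cons x Y ih =>
    have h1 := ih fun z hz => h z (List.mem_cons_of_mem _ hz)
    have h2 := h x List.mem_cons_self
    simp only [List.countP_cons]
    cases hP : P x <;> cases hQ : Q x <;> cases hR : R x <;> simp_all <;> omega

theorem big {u l α y : ℕ} {Y : List Nd} (f : ℕ → ℕ) (h : Ins u l α Y) (hy : y ≤ u) :
    cF f y Y ≤ cA y Y :=
  List.countP_mono_left fun x hx _ => by have := h x hx; simp; omega

theorem small {u l α y J : ℕ} {Y : List Nd} {f : ℕ → ℕ} (h : Ins u l α Y) (hu : 0 < u)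
    (hy : l ≤ y) (hJ : ∀ t, cv f t Y ≤ J) : cF f y Y ≤ J :=
  le_trans (List.countP_mono_left fun x hx h1 => by
    have := h x hx
    simp only [decide_eq_true_eq] at h1 ⊢
    omega) (hJ (α + l - 1))

theorem select {u k η α J : ℕ} {Y : List Nd} {f : ℕ → ℕ} (h : Ins u ((2 * k + 1) * η) α Y)
    (hu : 0 < u) (hη : 0 < η) (hJ : ∀ t, cv f t Y ≤ J) :
    cF f (3 * η) Y ≤ J + ∑ p ∈ range k, cP f (α + (2 * p + 1) * η) (α + (2 * p + 2) * η) Y := by
  refine le_trans (cnt_union fun x hx h1 => ?_) (Nat.add_le_add_right (hJ (α + (2 * k + 1) * η)) _)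
  obtain ⟨a1, a2, a3, -⟩ := h x hx
  simp only [decide_eq_true_eq] at h1 ⊢
  obtain ⟨d, hd⟩ := Nat.exists_eq_add_of_le a1
  have h2 := Nat.div_add_mod (d + η) (2 * η)
  have h3 := Nat.mod_lt (d + η) (show 0 < 2 * η by omega)
  generalize (d + η) / (2 * η) = τ at h2
  generalize (d + η) % (2 * η) = r at h2 h3
  by_cases hτ : τ < k
  · exact Or.inr ⟨τ, hτ, by nlinarith, by nlinarith⟩
  · have h4 : k * η ≤ τ * η := Nat.mul_le_mul_right _ (by omega)
    exact Or.inl ⟨by nlinarith, by nlinarith⟩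

theorem isolate {k i₀ c : ℕ} {A F : ℕ → ℕ} (hi : i₀ < k) (h : ∀ i < k, i ≠ i₀ → F i ≤ A i + c) :
    ∑ i ∈ range k, F i + A i₀ ≤ ∑ i ∈ range k, A i + F i₀ + c * k := by
  rw [← add_sum_erase _ F (mem_range.2 hi), ← add_sum_erase _ A (mem_range.2 hi)]
  have h1 : ∑ i ∈ (range k).erase i₀, F i ≤ ∑ i ∈ (range k).erase i₀, (A i + c) :=
    sum_le_sum fun i hi' => h i (mem_range.1 (mem_of_mem_erase hi')) (ne_of_mem_erase hi')
  rw [sum_add_distrib, sum_const, smul_eq_mul] at h1
  have h2 : ((range k).erase i₀).card ≤ k := by simpa using card_erase_le (s := range k) (a := i₀)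
  have h3 := Nat.mul_le_mul_right c h2
  nlinarith

theorem sub_le_row (P : Nd → Bool) {k α η i : ℕ} (pl : ℕ → Bool) (sub : ℕ → List Nd) (hi : i < k) :
    (sub i).countP P ≤ (row k α η pl sub).countP P := by
  rw [cnt_row]
  exact le_trans (Nat.le_add_left _ _) (single_le_sum
    (f := fun i => (P (nd (α + 2 * i * η) η (pl i))).toNat + (sub i).countP P)
    (fun _ _ => Nat.zero_le _) (mem_range.2 hi))

variable {n N G m Ω u α : ℕ} {P1 : ℕ → Bool} {P2 : ℕ → Bool → Bool} {g : ℕ → ℕ → List Nd}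

theorem run_le_stage (P : Nd → Bool) {γ : ℕ} (hγ : γ < G) (b : Bool) :
    (run n G m Ω u α P2 g γ b).countP P ≤ (stage n N G m Ω u α P1 P2 g).countP P := by
  rw [cnt_stage]
  have h1 := single_le_sum (f := fun γ => (run n G m Ω u α P2 g γ true).countP P +
    (run n G m Ω u α P2 g γ false).countP P) (fun _ _ => Nat.zero_le _) (mem_range.2 hγ)
  cases b <;> omega

theorem copy_le_run (P : Nd → Bool) {γ i : ℕ} (b : Bool) (hi : i < m) :
    (g (un m Ω u γ b i) (st n G m Ω u α γ b i)).countP P ≤ (run n G m Ω u α P2 g γ b).countP P :=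
  sub_le_row P _ (fun i => g (un m Ω u γ b i) (st n G m Ω u α γ b i)) hi

/-- the deficiency of one block -/
theorem block {J T y γ : ℕ} {f : ℕ → ℕ} (hΩ : 0 < Ω) (hu : 0 < u)
    (hg : ∀ u α, Ins u (u * Ω) α (g u α)) (hγ : γ < G)
    (hJ : ∀ t, cv f t (stage n N G m Ω u α P1 P2 g) ≤ J)
    (h1 : u * rB m Ω ^ γ ≤ y) (h2 : y ≤ u * rB m Ω ^ (γ + 1))
    (hT : cA y (stage n N G m Ω u α P1 P2 g) ≤ cF f y (stage n N G m Ω u α P1 P2 g) + T) :
    cA y (run n G m Ω u α P2 g γ true) + cA y (run n G m Ω u α P2 g γ false) ≤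
      cF f y (run n G m Ω u α P2 g γ true) + cF f y (run n G m Ω u α P2 g γ false) +
        (T + 2 * J * G) := by
  have a1 : cF f y (row N α (e1 G m Ω u) P1 fun _ => []) ≤
      cA y (row N α (e1 G m Ω u) P1 fun _ => []) :=
    big f (ins_row le_rfl fun _ _ _ h => by simp at h)
      (h2.trans ((base_mono hΩ hγ).trans (cl_le_e1 (by omega))))
  have a2 : ∀ γ' < G, γ' ≠ γ → ∀ b, cF f y (run n G m Ω u α P2 g γ' b) ≤
      cA y (run n G m Ω u α P2 g γ' b) + J := by
    intro γ' hγ' hne b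
    rcases Nat.lt_or_gt_of_ne hne with h | h
    · refine le_trans (small (ins_run hΩ hg γ' b) (by have := rB_pos (m := m) hΩ; positivity)
        ((base_mono hΩ h).trans h1) fun t => le_trans (run_le_stage _ hγ' b) (hJ t))
        (Nat.le_add_left _ _)
    · exact le_trans (big f (ins_run hΩ hg γ' b) (h2.trans (base_mono hΩ h))) (Nat.le_add_right _ _)
  have a3 := isolate (c := 2 * J)
    (A := fun γ => cA y (run n G m Ω u α P2 g γ true) + cA y (run n G m Ω u α P2 g γ false))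
    (F := fun γ => cF f y (run n G m Ω u α P2 g γ true) + cF f y (run n G m Ω u α P2 g γ false))
    hγ fun i hi hne => by have := a2 i hi hne true; have := a2 i hi hne false; omega
  simp only [cA, cF, cnt_stage] at hT a1 a3 ⊢
  omega

theorem node_le (f : ℕ → ℕ) {y a η : ℕ} (b : Bool) (hy : y ≤ η) :
    (decide (y ≤ f (nd a η b).1)).toNat ≤ (decide (y ≤ (nd a η b).2.2)).toNat := by
  have : y ≤ (nd a η b).2.2 := by cases b <;> simp [nd] <;> omega
  rw [decide_eq_true this]
  exact Bool.toNat_le _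

/-- the deficiency of one copy -/
theorem copy {J T y γ i : ℕ} {b : Bool} {f : ℕ → ℕ} (hΩ : 0 < Ω) (hu : 0 < u)
    (hg : ∀ u α, Ins u (u * Ω) α (g u α)) (hγ : γ < G) (hi : i < m)
    (hJ : ∀ t, cv f t (stage n N G m Ω u α P1 P2 g) ≤ J) (h1 : un m Ω u γ b i ≤ y)
    (hT : cA y (stage n N G m Ω u α P1 P2 g) ≤ cF f y (stage n N G m Ω u α P1 P2 g) + T) :
    cA y (g (un m Ω u γ b i) (st n G m Ω u α γ b i)) ≤
      cF f y (g (un m Ω u γ b i) (st n G m Ω u α γ b i)) + (T + 2 * J * G + 2 * J * m) := by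
  by_cases h2 : un m Ω u γ b i * Ω < y
  · have : cA y (g (un m Ω u γ b i) (st n G m Ω u α γ b i)) = 0 :=
      List.countP_eq_zero.2 fun x hx => by have := hg _ _ x hx; simp; omega
    omega
  have h3 : y ≤ e2 m Ω u γ := (not_lt.1 h2).trans (un_mul_le hΩ hi)
  have a0 := block hΩ hu hg hγ hJ ((base_le_un hΩ).trans h1)
    (h3.trans (by rw [← span_eq]; exact Nat.le_mul_of_pos_left _ (by omega))) hT
  have hpos : 0 < u * rB m Ω ^ γ := by have := rB_pos (m := m) hΩ; positivity
  have a2 : ∀ b' i', i' < m → b'.toNat * m + i' ≠ b.toNat * m + i →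
      cF f y (g (un m Ω u γ b' i') (st n G m Ω u α γ b' i')) ≤
        cA y (g (un m Ω u γ b' i') (st n G m Ω u α γ b' i')) + J := by
    intro b' i' hi' hne
    rcases Nat.lt_or_gt_of_ne hne with h | h
    · refine le_trans (small (hg _ _) (hpos.trans_le (base_le_un hΩ)) (le_trans ?_ h1) fun t =>
        le_trans (copy_le_run _ b' hi') (le_trans (run_le_stage _ hγ b') (hJ t)))
        (Nat.le_add_left _ _)
      rw [un, un, mul_assoc, ← pow_succ]
      exact Nat.mul_le_mul_left _ (Nat.pow_le_pow_right hΩ h)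
    · refine le_trans (big f (hg _ _) (le_trans (not_lt.1 h2) ?_)) (Nat.le_add_right _ _)
      rw [un, un, mul_assoc, ← pow_succ]
      exact Nat.mul_le_mul_left _ (Nat.pow_le_pow_right hΩ h)
  have a3 : cF f y (run n G m Ω u α P2 g γ !b) ≤ cA y (run n G m Ω u α P2 g γ !b) + J * m := by
    simp only [cA, cF, run, cnt_row]
    rw [show J * m = ∑ _i ∈ range m, J by simp [mul_comm], ← sum_add_distrib]
    refine sum_le_sum fun i' hi' => ?_
    have q1 := a2 (!b) i' (mem_range.1 hi') (by have := mem_range.1 hi'; cases b <;> simp <;> omega)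
    have q2 := node_le f (a := cs n G m Ω u α γ (!b) + 2 * i' * e2 m Ω u γ) (P2 γ !b) h3
    simp only [cA, cF] at q1
    omega
  have a4 : cF f y (run n G m Ω u α P2 g γ b) + cA y (g (un m Ω u γ b i) (st n G m Ω u α γ b i)) ≤
      cA y (run n G m Ω u α P2 g γ b) + cF f y (g (un m Ω u γ b i) (st n G m Ω u α γ b i)) +
        J * m := by
    have q0 := isolate (c := J)
      (A := fun i => cA y (g (un m Ω u γ b i) (st n G m Ω u α γ b i)))
      (F := fun i => cF f y (g (un m Ω u γ b i) (st n G m Ω u α γ b i))) hi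
      fun i' hi' hne => a2 b i' hi' (by omega)
    have q1 := sum_le_sum (s := range m) fun i' _ =>
      node_le f (a := cs n G m Ω u α γ b + 2 * i' * e2 m Ω u γ) (P2 γ b) h3
    simp only [cA, cF, run, cnt_row, sum_add_distrib] at q0 ⊢
    omega
  have a5 : 2 * J * m = J * m + J * m := by ring
  cases b
  · simp only [Bool.not_false] at a3; omega
  · simp only [Bool.not_true] at a3; omega

theorem cA_row {k a η : ℕ} (pl : ℕ → Bool) (sub : ℕ → List Nd) :
    (List.range k).countP pl ≤ cA (3 * η) (row k a η pl sub) := by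
  rw [cA, cnt_row]
  induction k with
  | zero => simp
  | succ k ih =>
    rw [List.range_succ, List.countP_append, sum_range_succ]
    refine Nat.add_le_add ih (le_trans ?_ (Nat.le_add_right _ _))
    cases h : pl k <;> simp [nd, h]

/-- some copy is covered twice from outside -/
theorem twice {J T Q : ℕ} {f : ℕ → ℕ} (hΩ : 0 < Ω) (hu : 0 < u) (hn : 0 < n) (hN : N = Q * n)
    (hGN : G = N * n) (hQ : Q = T + J + 1) (hm : m = T + 2 * J * G + 2 * J + 1)
    (hg : ∀ u α, Ins u (u * Ω) α (g u α))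
    (hno : ∀ C : Finset ℕ, C ⊆ range N → (List.range N).countP P1 < C.card + Q →
      ∃ γ < G, (∀ b, par n γ b ∈ C) ∧ ∃ b, P2 γ b = true)
    (hJ : ∀ t, cv f t (stage n N G m Ω u α P1 P2 g) ≤ J)
    (hT : ∀ y, u ≤ y → cA y (stage n N G m Ω u α P1 P2 g) ≤
      cF f y (stage n N G m Ω u α P1 P2 g) + T) :
    ∃ γ < G, ∃ b, ∃ i < m, 2 ≤ cP f (st n G m Ω u α γ b i)
      (st n G m Ω u α γ b i + un m Ω u γ b i * Ω) (stage n N G m Ω u α P1 P2 g) := by
  have hG : 0 < G := by rw [hGN, hN, hQ]; positivity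
  have hue : u ≤ e1 G m Ω u := (u_le_cl hΩ).trans (cl_le_e1 hG)
  have hin := ins_stage (m := m) (u := u) (α := α) (P1 := P1) (P2 := P2) hΩ hG hN hGN hg
  rw [rO_eq] at hin
  have s1 := select hin hu (by omega) hJ
  have s2 := hT (3 * e1 G m Ω u) (by omega)
  have s3 : (List.range N).countP P1 ≤ cA (3 * e1 G m Ω u) (stage n N G m Ω u α P1 P2 g) := by
    refine le_trans (cA_row (a := α) (η := e1 G m Ω u) P1 fun _ => []) ?_
    rw [cA, cA, cnt_stage]
    exact Nat.le_add_right _ _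
  -- position of a copy inside its run and inside the region of the parent
  have geo : ∀ γ < G, ∀ b, ∀ i < m, cs n G m Ω u α γ b ≤ st n G m Ω u α γ b i ∧
      st n G m Ω u α γ b i + un m Ω u γ b i * Ω ≤ cs n G m Ω u α γ b + (2 * i + 2) * e2 m Ω u γ ∧
      cs n G m Ω u α γ b + (2 * i + 2) * e2 m Ω u γ ≤ α + (2 * par n γ b + 2) * e1 G m Ω u := by
    intro γ hγ b i hi
    have q1 := un_mul_le (u := u) (γ := γ) (b := b) hΩ hi
    have q2 := (cell_in (n := n) (m := m) (Ω := Ω) (u := u) (α := α) hγ b).2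
    have q3 : (2 * i + 2) * e2 m Ω u γ ≤ (2 * m + 1) * e2 m Ω u γ :=
      Nat.mul_le_mul_right _ (by omega)
    have q4 : u * rB m Ω ^ (γ + 1) ≤ cl G m Ω u := base_mono hΩ hγ
    rw [span_eq] at q3
    refine ⟨Nat.le_add_right _ _, ?_, by omega⟩
    rw [st]
    nlinarith
  set X := stage n N G m Ω u α P1 P2 g with hX
  set c : ℕ → ℕ := fun p => cP f (α + (2 * p + 1) * e1 G m Ω u) (α + (2 * p + 2) * e1 G m Ω u) X
    with hc
  by_cases hA : ∃ p < N, 2 ≤ c p
  · obtain ⟨p, hp, h2⟩ := hA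
    have hγ : p * n < G := by rw [hGN]; exact Nat.mul_lt_mul_of_pos_right hp hn
    have hp' : par n (p * n) true = p := by simp [par, Nat.mul_div_cancel _ hn]
    refine ⟨p * n, hγ, true, 0, by omega, h2.trans (List.countP_mono_left fun x _ hx => ?_)⟩
    have q1 := geo _ hγ true 0 (by omega)
    have q2 := (cell_in (n := n) (m := m) (Ω := Ω) (u := u) (α := α) hγ true).1
    rw [hp'] at q1 q2
    simp only [decide_eq_true_eq] at hx ⊢
    omega
  have s4 : ∑ p ∈ range N, c p ≤ ((range N).filter fun p => 1 ≤ c p).card := by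
    rw [card_filter]
    refine sum_le_sum fun p hp => ?_
    have : ¬ 2 ≤ c p := fun h => hA ⟨p, mem_range.1 hp, h⟩
    split_ifs <;> omega
  obtain ⟨γ, hγ, hpar, b₀, hb₀⟩ := hno _ (filter_subset _ _)
    (show _ < ((range N).filter fun p => 1 ≤ c p).card + Q by
      change cF f (3 * e1 G m Ω u) X ≤ J + ∑ p ∈ range N, c p at s1
      omega)
  have hpos : 0 < u * rB m Ω ^ γ := by have := rB_pos (m := m) hΩ; positivity
  have he2 := base_le_e2 (u := u) (m := m) (γ := γ) hΩ
  have hub : u ≤ u * rB m Ω ^ γ := by simpa using base_mono (u := u) (m := m) hΩ (Nat.zero_le γ)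
  have t1 := block hΩ hu hg hγ hJ (y := 3 * e2 m Ω u γ) (by omega)
    (by rw [← span_eq]; exact Nat.mul_le_mul_right _ (by omega)) (hT _ (by omega))
  have t2 : m ≤ cA (3 * e2 m Ω u γ) (run n G m Ω u α P2 g γ b₀) := by
    refine le_trans ?_ (cA_row _ _)
    rw [List.countP_eq_length.2 fun _ _ => hb₀, List.length_range]
  obtain ⟨b, t3⟩ : ∃ b, J < cF f (3 * e2 m Ω u γ) (run n G m Ω u α P2 g γ b) := by
    by_contra hcon
    push Not at hcon
    have := hcon true
    have := hcon false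
    cases b₀ <;> omega
  have hin2 := ins_run (n := n) (G := G) (m := m) (u := u) (α := α) (P2 := P2) hΩ hg γ b
  have t4 := select (by rw [span_eq]; exact hin2) hpos (by omega)
    fun t => le_trans (run_le_stage _ hγ b) (hJ t)
  obtain ⟨i, hi, t5⟩ : ∃ i ∈ range m, cP f (cs n G m Ω u α γ b + (2 * i + 1) * e2 m Ω u γ)
      (cs n G m Ω u α γ b + (2 * i + 2) * e2 m Ω u γ) (run n G m Ω u α P2 g γ b) ≠ 0 :=
    exists_ne_zero_of_sum_ne_zero (by omega)
  have hi' := mem_range.1 hi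
  refine ⟨γ, hγ, b, i, hi', ?_⟩
  have q1 := geo _ hγ b i hi'
  have q2 := (cell_in (n := n) (m := m) (Ω := Ω) (u := u) (α := α) hγ b).1
  have t6 : 1 ≤ c (par n γ b) := (mem_filter.1 (hpar b)).2
  have t7 : 1 ≤ X.countP fun x => decide (cs n G m Ω u α γ b ≤ x.1 ∧ x.1 < st n G m Ω u α γ b i ∧
      st n G m Ω u α γ b i + un m Ω u γ b i * Ω ≤ x.1 + f x.1) := by
    refine le_trans ?_ (run_le_stage (N := N) (P1 := P1) _ hγ b)
    refine le_trans (Nat.one_le_iff_ne_zero.2 t5) (List.countP_mono_left fun x hx h => ?_)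
    have := (hin2 x hx).1
    have h' := of_decide_eq_true h
    exact decide_eq_true ⟨this, h'.1, q1.2.1.trans h'.2⟩
  refine le_trans (Nat.add_le_add t6 t7) (cnt_split fun x _ => ?_)
  simp only [decide_eq_true_eq]
  omega

theorem noP_stage {J T Q h : ℕ} (hΩ : 0 < Ω) (hu : 0 < u) (hn : 0 < n) (hN : N = Q * n)
    (hGN : G = N * n) (hQ : Q = T + J + 1) (hm : m = T + 2 * J * G + 2 * J + 1)
    (hg : ∀ u α, Ins u (u * Ω) α (g u α))
    (hno : ∀ C : Finset ℕ, C ⊆ range N → (List.range N).countP P1 < C.card + Q →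
      ∃ γ < G, (∀ b, par n γ b ∈ C) ∧ ∃ b, P2 γ b = true)
    (ih : ∀ u α, 0 < u → NoP J (T + 2 * J * G + 2 * J * m) h u (u * Ω) α (g u α)) :
    NoP J T (h + 1) u (u * rO N G m Ω) α (stage n N G m Ω u α P1 P2 g) := by
  intro f hJ hT
  obtain ⟨γ, hγ, b, i, hi, h2⟩ := twice hΩ hu hn hN hGN hQ hm hg hno hJ hT
  have hpos : 0 < u * rB m Ω ^ γ := by have := rB_pos (m := m) hΩ; positivity
  have hub : u ≤ u * rB m Ω ^ γ := by simpa using base_mono (u := u) (m := m) hΩ (Nat.zero_le γ)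
  have hun := base_le_un (u := u) (m := m) (γ := γ) (b := b) (i := i) hΩ
  have hsub : ∀ P : Nd → Bool, (g (un m Ω u γ b i) (st n G m Ω u α γ b i)).countP P ≤
      (stage n N G m Ω u α P1 P2 g).countP P := fun P =>
    le_trans (copy_le_run P b hi) (run_le_stage P hγ b)
  obtain ⟨t, t1, t2, t3⟩ := ih (un m Ω u γ b i) (st n G m Ω u α γ b i) (by omega) f
    (fun t => le_trans (hsub _) (hJ t)) fun y hy => copy hΩ hu hg hγ hi hJ hy (hT y (by omega))
  have q1 := un_mul_le (u := u) (γ := γ) (b := b) hΩ hi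
  have q2 := cell_in (n := n) (m := m) (Ω := Ω) (u := u) (α := α) hγ b
  have q3 : (2 * i + 2) * e2 m Ω u γ ≤ (2 * m + 1) * e2 m Ω u γ := Nat.mul_le_mul_right _ (by omega)
  have q4 : u * rB m Ω ^ (γ + 1) ≤ cl G m Ω u := base_mono hΩ hγ
  have q5 : par n γ b < N := hN ▸ par_lt (by rw [← hN, ← hGN]; exact hγ) b
  have q6 : (2 * par n γ b + 2) * e1 G m Ω u ≤ (2 * N + 1) * e1 G m Ω u :=
    Nat.mul_le_mul_right _ (by omega)
  rw [span_eq] at q3
  have q7 : st n G m Ω u α γ b i + e2 m Ω u γ = cs n G m Ω u α γ b + (2 * i + 2) * e2 m Ω u γ := by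
    rw [st]; ring
  have q8 : cs n G m Ω u α γ b ≤ st n G m Ω u α γ b i := Nat.le_add_right _ _
  refine ⟨t, by omega, by rw [rO_eq]; omega, ?_⟩
  have t4 : 2 * h ≤ (stage n N G m Ω u α P1 P2 g).countP fun x =>
      decide (st n G m Ω u α γ b i ≤ x.1 ∧ x.1 ≤ t ∧ t < x.1 + f x.1) := by
    refine le_trans t3 (le_trans (List.countP_mono_left fun x hx h => ?_) (hsub _))
    have := (hg _ _ x hx).1
    simp only [decide_eq_true_eq] at h ⊢
    omega
  refine le_trans (by omega) (le_trans (Nat.add_le_add h2 t4) (cnt_split fun x _ => ?_))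
  simp only [decide_eq_true_eq]
  omega

end No

/-- the graph has no large independent set -/
def HNo (n : ℕ) (P1 : ℕ → Bool) (P2 : ℕ → Bool → Bool) : Prop :=
  ∀ (Q : ℕ) (C : Finset ℕ), C ⊆ range (Q * n) → (List.range (Q * n)).countP P1 < C.card + Q →
    ∃ γ < Q * n * n, (∀ b, par n γ b ∈ C) ∧ ∃ b, P2 γ b = true

theorem noP_gen {n : ℕ} (hn : 0 < n) (J : ℕ) {P1 : ℕ → Bool} {P2 : ℕ → Bool → Bool}
    (hno : HNo n P1 P2) : ∀ h T u α, 0 < u →
      NoP J T h u (u * om n J h T) α (gen n J P1 P2 h T u α)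
  | 0, _, u, α, hu => fun _ _ _ => ⟨α, le_rfl, by simp [om, hu], by simp⟩
  | h + 1, T, _, _, hu => No.noP_stage (Q := pQ J T) (om_pos hn J h _) hu hn rfl rfl rfl rfl
      (ins_gen hn J P1 P2 h _) (hno _) (noP_gen hn J hno h _)

end Vale.Agent.P302H
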