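import Vale.Agent.P302H.Inst
import Mathlib.Analysis.SpecialFunctions.Log.Basic
import Mathlib.Analysis.SpecialFunctions.Sqrt
import Mathlib.Analysis.Complex.ExponentialBounds

/-!
P302: the gap as a function of the optimum.
-/

namespace Vale.Agent.P302H

open Finset Vale.Agent.P302

theorem Cov.cons {ι : Type} [Fintype ι] {n N : ℕ} {a : Fin n → ℚ} (h : Cov ι a N) :
    Cov ι (Fin.cons 1 a : Fin (n + 1) → ℚ) (N + 1) := by
  classical
  obtain ⟨B, h1, h2⟩ := h
  refine ⟨fun x => Fin.cases {0} (fun y => (B (x.1, y)).map (Fin.succEmb n)) x.2, ?_, fun i => ?_⟩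
  · rintro ⟨b, x⟩
    induction x using Fin.cases with
    | zero => simp
    | succ y => simpa using h1 (b, y)
  · induction i using Fin.cases with
    | zero =>
      exact card_le_card_of_injOn (fun b => (b, 0)) (fun b _ => by simp) fun _ _ _ _ h => by
        simpa using h
    | succ i =>
      refine (h2 i).trans (card_le_card_of_injOn (fun x => (x.1, x.2.succ)) (fun x hx => ?_)
        fun _ _ _ _ h => ?_)
      · simpa using hx
      · simpa [Prod.ext_iff] using h

theorem cov_opt {n : ℕ} {a : Fin n → ℚ} (ha : IsInstance a) : Cov Unit a (OPT a) := by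
  obtain ⟨f, hf⟩ := OPT_spec a fun i => (ha i).2
  refine ⟨fun x => univ.filter fun i => f i = x.2, fun x => hf x.2, fun i => ?_⟩
  exact card_pos.2 ⟨((), f i), by simp⟩

theorem inst_cons {n : ℕ} {a : Fin n → ℚ} (ha : IsInstance a) :
    IsInstance (Fin.cons 1 a : Fin (n + 1) → ℚ) := fun i => by
  induction i using Fin.cases with
  | zero => simp
  | succ i => simpa using ha i

theorem opt_cons {n : ℕ} {a : Fin n → ℚ} (ha : IsInstance a) :
    OPT (Fin.cons 1 a : Fin (n + 1) → ℚ) = OPT a + 1 := by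
  have ha' := inst_cons ha
  refine le_antisymm ((cov_opt ha).cons.opt_le fun i => (ha' i).1.le) ?_
  obtain ⟨f, hf⟩ := OPT_spec _ fun i => (ha' i).2
  generalize OPT (Fin.cons 1 a : Fin (n + 1) → ℚ) = k at f hf
  obtain ⟨k, rfl⟩ : ∃ k', k = k' + 1 := ⟨k - 1, by have := (f 0).2; omega⟩
  refine Nat.succ_le_succ (opt_le_of_cover a (fun i => (ha i).1.le)
    (fun b => univ.filter fun i => f i.succ = (f 0).succAbove b) (fun b => ?_) fun i => ?_)
  · refine le_trans ?_ (hf ((f 0).succAbove b))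
    simp only [sum_filter, Fin.sum_univ_succ, Fin.cons_succ, Fin.cons_zero]
    split_ifs <;> simp
  · have hne : f i.succ ≠ f 0 := fun h => by
      have h1 := sum_le_sum_of_subset_of_nonneg (f := (Fin.cons 1 a : Fin (n + 1) → ℚ))
        (s := {0, i.succ}) (t := univ.filter fun j => f j = f 0)
        (fun j hj => by rcases mem_insert.1 hj with rfl | hj <;> simp_all)
        fun j _ _ => (ha' j).1.le
      rw [sum_pair (Fin.succ_ne_zero i).symm, Fin.cons_zero, Fin.cons_succ] at h1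
      linarith [hf (f 0), (ha i).1]
    obtain ⟨b, hb⟩ := Fin.exists_succAbove_eq hne
    exact ⟨b, by simp [hb]⟩

theorem pad {n N : ℕ} {a : Fin n → ℚ} (ha : IsInstance a) (h : Cov Bool a N) (j : ℕ) :
    ∃ (n' : ℕ) (a' : Fin n' → ℚ), IsInstance a' ∧ OPT a' = OPT a + j ∧ Cov Bool a' (N + j) := by
  induction j with
  | zero => exact ⟨n, a, ha, rfl, h⟩
  | succ j ih =>
    obtain ⟨n', a', h1, h2, h3⟩ := ih
    exact ⟨_, _, inst_cons h1, by rw [opt_cons h1, h2, add_assoc], h3.cons⟩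

theorem exists_gap_opt {c m : ℕ} (hc : 2 ≤ c) (hm : c ^ (20000 * c ^ 2) ≤ m) :
    ∃ (n : ℕ) (a : Fin n → ℚ), IsInstance a ∧ OPT a = m ∧ (c + 1 : ℝ) ≤ m - LP a := by
  obtain ⟨L, N, h1, h2, h3, h4⟩ := exists_gap_size hc
  have ha : IsInstance L.get := fun i => by
    have := h1 _ (List.get_mem _ i)
    constructor <;> linarith [this.1, this.2]
  have h5 := opt_le_card L.get (fun i => (ha i).1.le) fun i => (ha i).2
  obtain ⟨n, a, a1, a2, a3⟩ := pad ha h2 (m - OPT L.get)
  refine ⟨n, a, a1, by omega, ?_⟩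
  have a4 := a3.lp_le
  have a5 : c + 1 + (N + (m - OPT L.get)) ≤ m := by omega
  have a6 : (c + 1 : ℝ) + (N + (m - OPT L.get) : ℕ) ≤ m := by exact_mod_cast a5
  linarith

theorem pow_le_of_le {c m : ℕ} (hm : 32 ≤ m) (hc1 : 1 ≤ c)
    (hc : (c : ℝ) ≤ √(Real.log m / Real.log (Real.log m)) / 150) : c ^ (20000 * c ^ 2) ≤ m := by
  have hm0 : (0 : ℝ) < m := by exact_mod_cast (show 0 < m by omega)
  have hL : 3 ≤ Real.log m := by
    have h1 : Real.log (2 ^ 5) ≤ Real.log m :=
      Real.log_le_log (by norm_num) (by exact_mod_cast (show 2 ^ 5 ≤ m by omega))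
    rw [Real.log_pow] at h1
    have := Real.log_two_gt_d9
    push_cast at h1
    linarith
  set L := Real.log m with hLdef
  have hl : 1 ≤ Real.log L := by
    rw [Real.le_log_iff_exp_le (by linarith)]
    linarith [Real.exp_one_lt_d9]
  have hc0 : (1 : ℝ) ≤ c := by exact_mod_cast hc1
  have h2 : (150 * c : ℝ) ^ 2 ≤ L / Real.log L :=
    (Real.le_sqrt (by positivity) (by positivity)).1 (by linarith)
  rw [le_div_iff₀ (by linarith)] at h2
  have h3 : (c : ℝ) ≤ L := by nlinarith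
  have h4 : Real.log c ≤ Real.log L := Real.log_le_log (by linarith) h3
  have h5 : Real.log ((c : ℝ) ^ (20000 * c ^ 2)) ≤ L := by
    rw [Real.log_pow]
    push_cast
    have := mul_le_mul_of_nonneg_left h4 (show (0 : ℝ) ≤ 20000 * c ^ 2 by positivity)
    nlinarith
  have h6 := (Real.log_le_log_iff (by positivity) hm0).1 h5
  exact_mod_cast h6

/-- the rate -/
theorem exists_rate : ∃ m₀ : ℕ, ∀ m ≥ m₀, ∃ (n : ℕ) (a : Fin n → ℚ), IsInstance a ∧ OPT a = m ∧
    √(Real.log m / Real.log (Real.log m)) / 150 < (OPT a : ℝ) - LP a := by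
  obtain ⟨c₀, hc₀⟩ : ∃ c₀ : ℕ, c₀ = 2 := ⟨_, rfl⟩
  refine ⟨max 32 (c₀ ^ (20000 * c₀ ^ 2)), fun m hm => ?_⟩
  have h1 : 32 ≤ m := le_trans (le_max_left _ _) hm
  have h2 : c₀ ^ (20000 * c₀ ^ 2) ≤ m := le_trans (le_max_right _ _) hm
  set x := √(Real.log m / Real.log (Real.log m)) / 150 with hx
  have h3 := Nat.lt_floor_add_one x
  by_cases h : 2 ≤ ⌊x⌋₊
  · obtain ⟨n, a, a1, a2, a3⟩ := exists_gap_opt h
      (pow_le_of_le h1 (by omega) (Nat.floor_le (by positivity)))
    exact ⟨n, a, a1, a2, by rw [a2]; linarith⟩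
  · obtain ⟨n, a, a1, a2, a3⟩ := exists_gap_opt hc₀.ge h2
    have h4 : (⌊x⌋₊ : ℝ) ≤ c₀ := by exact_mod_cast (show ⌊x⌋₊ ≤ c₀ by omega)
    exact ⟨n, a, a1, a2, by rw [a2]; linarith⟩

end Vale.Agent.P302H
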