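import Vale.Agent.P302H.Inst
import Vale.Agent.Lib.PCP.Defs
import Mathlib.Combinatorics.Pigeonhole

/-!
P302, additive hardness: the instance of a formula.
-/

namespace Vale.Agent.P302H

open Finset Vale.Agent.P302 Vale.Agent.Lib.PCP

/-- a clause which is always true -/
def taut : Clause := ((0, true), (0, false), (0, false))

/-- the literal with number `r` of a clause -/
def litC (C : Clause) (r : ℕ) : Lit := if r = 0 then C.1 else if r = 1 then C.2.1 else C.2.2

/-- the literal of the vertex `p` -/
def litG (φ : CNF) (p : ℕ) : Lit := litC ((taut :: φ).getD (p / 3 % (φ.length + 1)) taut) (p % 3)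

/-- adjacency: two literals of the same clause, or complementary literals -/
def adjG (φ : CNF) (u v : ℕ) : Bool :=
  (decide (u / 3 = v / 3) && !decide (u = v)) ||
    (decide ((litG φ u).1 = (litG φ v).1) && Bool.xor (litG φ u).2 (litG φ v).2)

/-- the upper selection -/
def s1 (p : ℕ) : Bool := decide (p % 3 = 0)

/-- the lower selection -/
def s2 (φ : CNF) (γ : ℕ) (b : Bool) : Bool :=
  b && adjG φ (par (3 * (φ.length + 1)) γ true) (par (3 * (φ.length + 1)) γ false)

theorem satClause_iff (C : Clause) (σ : ℕ → Bool) :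
    satClause C σ = true ↔ ∃ r < 3, satLit (litC C r) σ = true := by
  simp only [satClause, Bool.or_eq_true]
  constructor
  · rintro ((h | h) | h)
    exacts [⟨0, by omega, h⟩, ⟨1, by omega, h⟩, ⟨2, by omega, h⟩]
  · rintro ⟨r, hr, h⟩
    interval_cases r
    exacts [Or.inl (Or.inl h), Or.inl (Or.inr h), Or.inr h]

theorem cnt_sel (w : ℕ → ℕ) (hw : ∀ i, w i < 3) (K : ℕ) :
    (List.range (3 * K)).countP (fun p => decide (p % 3 = w (p / 3))) = K := by
  induction K with
  | zero => simp
  | succ K ih =>
    have e : 3 * (K + 1) = 3 * K + 1 + 1 + 1 := by ring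
    have a0 : 3 * K % 3 = 0 ∧ 3 * K / 3 = K := by omega
    have a1 : (3 * K + 1) % 3 = 1 ∧ (3 * K + 1) / 3 = K := by omega
    have a2 : (3 * K + 1 + 1) % 3 = 2 ∧ (3 * K + 1 + 1) / 3 = K := by omega
    simp only [e, List.range_succ, List.countP_append, ih, List.countP_singleton, a0, a1, a2]
    have := hw K
    generalize w K = r at this
    interval_cases r <;> simp

theorem cnt_s1 (K : ℕ) : (List.range (3 * K)).countP s1 = K := cnt_sel (fun _ => 0) (by simp) K

theorem sat_yes {φ : CNF} (h : Satisfiable φ) (c : ℕ) :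
    OPT (iL (3 * (φ.length + 1)) c s1 (s2 φ)).get ≤
      (iZ (3 * (φ.length + 1)) c s1 (s2 φ)).length := by
  obtain ⟨σ, hσ⟩ := h
  have h1 : ∀ i, ∃ r < 3, satLit (litC ((taut :: φ).getD i taut) r) σ = true := fun i => by
    rw [← satClause_iff]
    have ht : satClause taut σ = true := by cases h : σ 0 <;> simp [satClause, satLit, taut, h]
    rcases Nat.lt_or_ge i (taut :: φ).length with hi | hi
    · rw [List.getD_eq_getElem _ _ hi]
      rcases List.mem_cons.1 (List.getElem_mem hi) with e | e
      · rw [e]; exact ht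
      · exact hσ _ e
    · rw [List.getD_eq_default _ _ hi]; exact ht
  choose w hw hw' using h1
  let P : ℕ → Bool := fun p => decide (p % 3 = w (p / 3 % (φ.length + 1)))
  have hP : ∀ u v, P u = true → P v = true → adjG φ u v = false := by
    intro u v hu hv
    have hu' := of_decide_eq_true hu
    have hv' := of_decide_eq_true hv
    have a1 := hw' (u / 3 % (φ.length + 1))
    have a2 := hw' (v / 3 % (φ.length + 1))
    rw [← hu'] at a1
    rw [← hv'] at a2
    change satLit (litG φ u) σ = true at a1
    change satLit (litG φ v) σ = true at a2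
    simp only [satLit, beq_iff_eq] at a1 a2
    simp only [adjG, Bool.or_eq_false_iff, Bool.and_eq_false_imp, decide_eq_true_eq]
    refine ⟨fun h => ?_, fun h => by rw [← a1, ← a2, h]; simp⟩
    rw [h] at hu'
    simp only [Bool.not_eq_eq_eq_not, Bool.not_false, decide_eq_true_eq]
    omega
  refine iL_yes (by omega) c (P1' := P)
    (P2' := fun γ b => adjG φ (par (3 * (φ.length + 1)) γ true) (par (3 * (φ.length + 1)) γ false)
      && Bool.xor b (P (par (3 * (φ.length + 1)) γ true))) (fun Q => ?_) (fun γ => ?_) fun γ b => ?_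
  · rw [show Q * (3 * (φ.length + 1)) = 3 * (Q * (φ.length + 1)) by ring, cnt_s1]
    exact (cnt_sel (fun i => w (i % (φ.length + 1))) (fun _ => hw _) _).ge
  · simp only [s2]
    cases adjG φ (par (3 * (φ.length + 1)) γ true) (par (3 * (φ.length + 1)) γ false) <;>
      cases P (par (3 * (φ.length + 1)) γ true) <;> simp
  · have := hP (par (3 * (φ.length + 1)) γ true) (par (3 * (φ.length + 1)) γ false)
    revert this
    cases b <;> cases adjG φ (par (3 * (φ.length + 1)) γ true) (par (3 * (φ.length + 1)) γ false)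
      <;> cases P (par (3 * (φ.length + 1)) γ true) <;>
      cases P (par (3 * (φ.length + 1)) γ false) <;> simp

theorem sat_no {φ : CNF} (h : ¬ Satisfiable φ) : HNo (3 * (φ.length + 1)) s1 (s2 φ) := by
  classical
  intro Q C hC hcard
  obtain ⟨k, hk⟩ : ∃ k, k = φ.length + 1 := ⟨_, rfl⟩
  have hk0 : 0 < k := by omega
  by_contra hcon
  rw [← hk] at hC hcard hcon
  have hdiv : ∀ u, u / (3 * k) = u / 3 / k := fun u => (Nat.div_div_eq_div_mul _ _ _).symm
  have hind : ∀ u ∈ C, ∀ v ∈ C, u / 3 / k = v / 3 / k → adjG φ u v = false := by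
    intro u hu v hv he
    have h1 := par_pair (n := 3 * k) (by omega) (u := u) (v := v) (by rw [hdiv, hdiv, he])
    by_contra hadj
    refine hcon ⟨u * (3 * k) + v % (3 * k), pair_lt (by omega) (mem_range.1 (hC hu)),
      fun b => ?_, true, ?_⟩
    · cases b
      · rw [h1.2]; exact hv
      · rw [h1.1]; exact hu
    · rw [s2, ← hk, h1.1, h1.2]; simpa using hadj
  have hinj : Set.InjOn (fun u => u / 3) C := fun u hu v hv he => by
    have he' : u / 3 = v / 3 := he
    have := hind u hu v hv (by rw [he'])
    simp only [adjG, Bool.or_eq_false_iff, Bool.and_eq_false_imp, decide_eq_true_eq] at this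
    simpa using this.1 he'
  rw [show Q * (3 * k) = 3 * (Q * k) by ring] at hC hcard
  rw [cnt_s1, ← card_image_of_injOn hinj] at hcard
  obtain ⟨q, -, hq⟩ := exists_lt_card_fiber_of_mul_lt_card_of_maps_to
    (s := C.image fun u => u / 3) (t := range Q) (f := fun i => i / k) (n := k - 1)
    (fun i hi => by
      obtain ⟨u, hu, rfl⟩ := mem_image.1 hi
      have := mem_range.1 (hC hu)
      exact mem_range.2 ((Nat.div_lt_iff_lt_mul hk0).2 (by omega)))
    (by
      obtain ⟨k', rfl⟩ : ∃ k', k = k' + 1 := ⟨k - 1, by omega⟩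
      simp only [card_range, Nat.add_sub_cancel]
      rw [mul_add] at hcard
      omega)
  have hall : ((C.image fun u => u / 3).filter fun i => i / k = q) =
      (range k).image fun i => q * k + i := by
    refine eq_of_subset_of_card_le (fun i hi => ?_) (card_image_le.trans (by simp; omega))
    refine mem_image.2 ⟨i % k, mem_range.2 (Nat.mod_lt _ hk0), ?_⟩
    rw [← (mem_filter.1 hi).2, Nat.div_add_mod']
  refine h ⟨fun x => decide (∃ u ∈ C, u / 3 / k = q ∧ litG φ u = (x, true)), fun D hD => ?_⟩
  obtain ⟨i, hi, rfl⟩ := List.getElem_of_mem hD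
  have h1 : q * k + (i + 1) ∈ (C.image fun u => u / 3).filter fun i => i / k = q :=
    hall ▸ mem_image.2 ⟨i + 1, mem_range.2 (by omega), rfl⟩
  obtain ⟨h2, h3⟩ := mem_filter.1 h1
  obtain ⟨u, hu, h4⟩ := mem_image.1 h2
  have h5 : litG φ u = litC φ[i] (u % 3) := by
    rw [litG, ← hk, h4, Nat.mul_add_mod_self_right, Nat.mod_eq_of_lt (by omega),
      List.getD_cons_succ, List.getD_eq_getElem _ _ hi]
  rw [← h4] at h3
  refine (satClause_iff _ _).2 ⟨u % 3, Nat.mod_lt _ (by omega), ?_⟩
  rw [← h5, satLit, beq_iff_eq]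
  cases hs : (litG φ u).2
  · refine decide_eq_false ?_
    rintro ⟨v, hv, h6, h7⟩
    have := hind u hu v hv (by rw [h3, h6])
    simp [adjG, h7, hs] at this
  · exact decide_eq_true ⟨u, hu, h3, Prod.ext rfl hs⟩

end Vale.Agent.P302H
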