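import Vale.Agent.P302H.Yes
import Vale.Agent.P302.Main
import Mathlib.Combinatorics.Hall.Basic
import Mathlib.Data.List.GetD

/-!
P302, additive hardness: from lists of nodes to bin packing instances.
-/

namespace Vale.Agent.P302H

open Finset Vale.Agent.P302

/-- the items: left ends, right ends, lengths -/
def items (U : ℕ) (Z : List Nd) : List ℚ :=
  Z.map (fun x => (10 + (x.1 : ℚ) / U) / 39) ++
    (Z.map (fun x => (13 - ((x.1 + x.2.1 : ℕ) : ℚ) / U) / 39) ++
      Z.map fun x => (16 + (x.2.2 : ℚ) / U) / 39)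

/-- the nodes together with `D` additional right ends -/
def top (D U : ℕ) (X : List Nd) : List Nd := List.replicate D (0, U, 0) ++ X

namespace Top

theorem countP_eq_card (P : Nd → Bool) {Z : List Nd} {N : ℕ} (h : Z.length = N) :
    Z.countP P = (univ.filter fun k : Fin N => P (Z.getD k 0) = true).card := by
  subst h
  rw [card_filter]
  induction Z with
  | nil => simp
  | cons x Z ih =>
    rw [List.countP_cons, ih]
    simp only [List.length_cons, Fin.sum_univ_succ, Fin.val_zero, List.getD_cons_zero,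
      Fin.val_succ, List.getD_cons_succ]
    omega

theorem exists_equiv (U : ℕ) (Z : List Nd) :
    ∃ e : Fin Z.length ⊕ Fin Z.length ⊕ Fin Z.length ≃ Fin (items U Z).length, ∀ y,
      (items U Z).get (e y) = size (fun k : Fin Z.length => ((Z.getD k 0).1 : ℚ) / U)
        (fun k => (((Z.getD k 0).1 + (Z.getD k 0).2.1 : ℕ) : ℚ) / U)
        (fun k => ((Z.getD k 0).2.2 : ℚ) / U) y := by
  have hl : Z.length + (Z.length + Z.length) = (items U Z).length := by simp [items]
  refine ⟨((Equiv.sumCongr (Equiv.refl _) finSumFinEquiv).trans finSumFinEquiv).trans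
    (finCongr hl), ?_⟩
  have key : ∀ (i : Fin (items U Z).length) (j : ℕ), (i : ℕ) = j →
      (items U Z).get i = (items U Z).getD j 0 := by
    rintro i _ rfl
    rw [List.getD_eq_getElem _ _ i.2]; rfl
  rintro (k | k | k)
  · rw [key _ k rfl]
    simp [items, size, List.getElem?_append_left]
  · rw [key _ (Z.length + k) rfl]
    simp [items, size, List.getElem?_append_left, List.getElem?_append_right]
  · rw [key _ (Z.length + (Z.length + k)) rfl]
    simp [items, size]

theorem card_le_add {B : Type} [Fintype B] {N W : ℕ} (j : B → Fin N) (hj : Function.Injective j)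
    (hW : N ≤ Fintype.card B + W) (P : Fin N → Prop) [DecidablePred P] :
    (univ.filter P).card ≤ (univ.filter fun b => P (j b)).card + W := by
  have h1 := card_filter_inj j hj fun k => ¬ P k
  have h2 := card_filter_add_card_filter_not (s := (univ : Finset B)) fun b => P (j b)
  have h3 := card_filter_add_card_filter_not (s := (univ : Finset (Fin N))) P
  rw [card_univ] at h2 h3
  rw [Fintype.card_fin] at h3
  omega

theorem getD_mem {Z : List Nd} (k : Fin Z.length) : Z.getD k 0 ∈ Z := by
  rw [List.getD_eq_getElem _ _ k.2]; exact List.getElem_mem _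

theorem mem_top {D U : ℕ} {X : List Nd} {x : Nd} (h : x ∈ top D U X) : x = (0, U, 0) ∨ x ∈ X :=
  (List.mem_append.1 h).imp_left List.eq_of_mem_replicate

theorem cnt_top (P : Nd → Bool) (D U : ℕ) (X : List Nd) :
    (top D U X).countP P = D * (P (0, U, 0)).toNat + X.countP P := by
  rw [top, List.countP_append, List.countP_replicate]
  cases P (0, U, 0) <;> simp

theorem cnt_top_le (P : Nd → Bool) (D U : ℕ) (X : List Nd) :
    X.countP P ≤ (top D U X).countP P ∧ (top D U X).countP P ≤ D + X.countP P := by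
  rw [cnt_top]
  cases P (0, U, 0) <;> simp

/-- no large matching -/
theorem no_match {X Z : List Nd} {U D W J T l : ℕ} (hZ : Z = top D U X) (hin : Ins 1 l 1 X)
    (hD : ∀ t, cD t X ≤ 1) (hno : NoP J T D 1 l 1 X) (hJ : D + W + 1 ≤ J) (hJ' : J < 2 * D)
    (hT : D + W ≤ T) {B : Type} [Fintype B] (i j m : B → Fin Z.length) (hi : Function.Injective i)
    (hj : Function.Injective j) (hm : Function.Injective m)
    (hb : ∀ b, (Z.getD (i b) 0).1 + (Z.getD (m b) 0).2.2 ≤
      (Z.getD (j b) 0).1 + (Z.getD (j b) 0).2.1) : Fintype.card B + W < Z.length := by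
  classical
  by_contra hW
  push Not at hW
  let f : ℕ → ℕ := fun a => (univ.filter fun b => (Z.getD (i b) 0).1 = a).sup
    fun b => (Z.getD (m b) 0).2.2
  have hinj : ∀ k k' : Fin Z.length, 1 ≤ (Z.getD k 0).1 → (Z.getD k' 0).1 = (Z.getD k 0).1 →
      k' = k := by
    intro k k' h1 h2
    have h3' : ∀ t, Z.countP (fun x => decide (1 ≤ x.1 ∧ x.1 ≤ t ∧ t < x.1 + x.2.1)) ≤ 1 := by
      intro t
      rw [hZ, cnt_top, decide_eq_false (by simp)]
      refine le_trans ?_ (hD t)
      simp only [Bool.toNat_false, mul_zero, zero_add]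
      exact List.countP_mono_left fun x _ h => decide_eq_true (of_decide_eq_true h).2
    have h3 := h3' (Z.getD k 0).1
    rw [countP_eq_card _ rfl] at h3
    have h4 : ∀ q : Fin Z.length, (Z.getD q 0).1 = (Z.getD k 0).1 → 1 ≤ (Z.getD q 0).2.1 := by
      intro q hq
      rcases mem_top (show Z.getD q 0 ∈ top D U X by rw [← hZ]; exact getD_mem q) with h | h
      · rw [h] at hq; simp only at hq; omega
      · exact (hin _ h).2.2.1
    refine card_le_one.1 h3 _ (mem_filter.2 ⟨mem_univ _, decide_eq_true ?_⟩) _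
      (mem_filter.2 ⟨mem_univ _, decide_eq_true ?_⟩)
    · have := h4 k' h2; omega
    · have := h4 k rfl; omega
  have hcv : ∀ t, cv f t X ≤ J := by
    intro t
    have a1 : cv f t X ≤ Z.countP fun x => decide (1 ≤ x.1 ∧ x.1 ≤ t ∧ t < x.1 + f x.1) :=
      le_trans (List.countP_mono_left fun x hx h => decide_eq_true
        ⟨(hin x hx).1, of_decide_eq_true h⟩) (hZ ▸ (cnt_top_le _ D U X).1)
    rw [countP_eq_card _ rfl] at a1
    have a2 : (univ.filter fun k : Fin Z.length => decide (1 ≤ (Z.getD k 0).1 ∧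
        (Z.getD k 0).1 ≤ t ∧ t < (Z.getD k 0).1 + f (Z.getD k 0).1) = true) ⊆
        (univ.filter fun b => (Z.getD (i b) 0).1 ≤ t ∧
          t < (Z.getD (j b) 0).1 + (Z.getD (j b) 0).2.1).image i := by
      intro k hk
      obtain ⟨h1, h2, h3⟩ := of_decide_eq_true (mem_filter.1 hk).2
      have h4 : t - (Z.getD k 0).1 < f (Z.getD k 0).1 := by omega
      obtain ⟨b, hb1, hb2⟩ := Finset.lt_sup_iff.1 h4
      have h5 := (mem_filter.1 hb1).2
      have h6 := hb b
      exact mem_image.2 ⟨b, mem_filter.2 ⟨mem_univ _, by omega, by omega⟩, hinj _ _ h1 h5⟩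
    have a3 := (card_le_card a2).trans card_image_le
    have a4 : (univ.filter fun b => (Z.getD (i b) 0).1 ≤ t ∧
        t < (Z.getD (j b) 0).1 + (Z.getD (j b) 0).2.1).card +
        (univ.filter fun b => (Z.getD (j b) 0).1 + (Z.getD (j b) 0).2.1 ≤ t).card ≤
        (univ.filter fun b => (Z.getD (i b) 0).1 ≤ t).card := by
      rw [← card_union_of_disjoint (disjoint_filter.2 fun b _ h1 h2 => by omega)]
      refine card_le_card fun b hb' => mem_filter.2 ⟨mem_univ _, ?_⟩
      have := hb b
      rcases mem_union.1 hb' with h | h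
      · exact (mem_filter.1 h).2.1
      · have := (mem_filter.1 h).2; omega
    have a5 := card_filter_inj i hi fun k => (Z.getD k 0).1 ≤ t
    have a6 := card_le_add j hj hW fun k => (Z.getD k 0).1 + (Z.getD k 0).2.1 ≤ t
    have a7 : (univ.filter fun k : Fin Z.length => (Z.getD k 0).1 ≤ t).card ≤
        (univ.filter fun k : Fin Z.length => decide ((Z.getD k 0).1 ≤ t ∧
          t < (Z.getD k 0).1 + (Z.getD k 0).2.1) = true).card +
        (univ.filter fun k : Fin Z.length => (Z.getD k 0).1 + (Z.getD k 0).2.1 ≤ t).card := by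
      refine le_trans (card_le_card fun k hk => ?_) (card_union_le _ _)
      have := (mem_filter.1 hk).2
      simp only [mem_union, mem_filter, mem_univ, true_and, decide_eq_true_eq]
      omega
    rw [← countP_eq_card (fun x => decide (x.1 ≤ t ∧ t < x.1 + x.2.1)) rfl] at a7
    have a8 := (cnt_top_le (fun x => decide (x.1 ≤ t ∧ t < x.1 + x.2.1)) D U X).2
    have a9 := hD t
    rw [cD] at a9
    rw [← hZ] at a8
    omega
  have hcA : ∀ y, 1 ≤ y → cA y X ≤ cF f y X + T := by
    intro y _
    have a1 := (cnt_top_le (fun x => decide (y ≤ x.2.2)) D U X).1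
    have a2 := (cnt_top_le (fun x => decide (y ≤ f x.1)) D U X).2
    rw [← hZ, countP_eq_card _ (rfl : Z.length = _)] at a1 a2
    have a3 := card_le_add m hm hW fun k => decide (y ≤ (Z.getD k 0).2.2) = true
    have a4 := card_filter_inj i hi fun k => decide (y ≤ f (Z.getD k 0).1) = true
    have a5 : (univ.filter fun b => decide (y ≤ (Z.getD (m b) 0).2.2) = true).card ≤
        (univ.filter fun b => decide (y ≤ f (Z.getD (i b) 0).1) = true).card := by
      refine card_le_card fun b hb' => mem_filter.2 ⟨mem_univ _, decide_eq_true ?_⟩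
      exact (of_decide_eq_true (mem_filter.1 hb').2).trans
        (le_sup (f := fun b => (Z.getD (m b) 0).2.2) (mem_filter.2 ⟨mem_univ _, rfl⟩))
    rw [cA, cF]
    omega
  obtain ⟨t, -, -, ht⟩ := hno f hcv hcA
  have := hcv t
  omega

theorem hall {κ : Type} [Fintype κ] (e r : κ → ℕ)
    (h : ∀ y, (univ.filter fun x => y ≤ e x).card ≤ (univ.filter fun x => y ≤ r x).card) :
    ∃ π : κ ≃ κ, ∀ x, e x ≤ r (π x) := by
  classical
  obtain ⟨π, h1, h2⟩ := (Fintype.all_card_le_filter_rel_iff_exists_injective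
    fun x y => e x ≤ r y).1 fun A => by
      rcases A.eq_empty_or_nonempty with rfl | hA
      · simp
      obtain ⟨a, ha, hm⟩ := A.exists_min_image e hA
      refine le_trans (card_le_card fun x hx => mem_filter.2 ⟨mem_univ _, hm x hx⟩)
        ((h (e a)).trans (card_le_card fun x hx => ?_))
      exact mem_filter.2 ⟨mem_univ _, a, ha, (mem_filter.1 hx).2⟩
  exact ⟨Equiv.ofBijective π (Finite.injective_iff_bijective.1 h1), h2⟩

theorem card_prod {ι : Type} [Fintype ι] {N : ℕ} (P : ι → Fin N → Prop)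
    [∀ i, DecidablePred (P i)] : (univ.filter fun x : ι × Fin N => P x.1 x.2).card =
      ∑ i, (univ.filter (P i)).card := by
  simp only [card_filter, Fintype.sum_prod_type]

theorem card_fiber {ι : Type} [Fintype ι] {N : ℕ} (π : ι × Fin N ≃ ι × Fin N) (k : Fin N) :
    Fintype.card ι ≤ (univ.filter fun x => (π x).2 = k).card := by
  classical
  refine card_le_card_of_injOn (fun i => π.symm (i, k)) (fun i _ => by simp) fun a _ b _ h => ?_
  simpa using h

/-- a family of perfect matchings -/
theorem yes_match {ι : Type} [Fintype ι] {X Z : List Nd} {X' : ι → List Nd} {U D l : ℕ}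
    (hZ : Z = top D U X) (hmap : ∀ i, (X' i).map (fun x => (x.1, x.2.1)) = X.map fun x => (x.1, x.2.1))
    (hin : ∀ i, Ins 1 l 1 (X' i)) (hl : 1 + l ≤ U) (hA : ∀ i y, cA y X ≤ cA y (X' i))
    (hL : ∀ t, ∑ i, cL t (X' i) ≤ Fintype.card ι * D) :
    ∃ π ρ : ι × Fin Z.length ≃ ι × Fin Z.length, ∀ x,
      (Z.getD x.2 0).1 + (Z.getD (π x).2 0).2.2 ≤
        (Z.getD (ρ x).2 0).1 + (Z.getD (ρ x).2 0).2.1 := by
  classical
  have hmap' : ∀ i, (top D U (X' i)).map (fun x => (x.1, x.2.1)) = Z.map fun x => (x.1, x.2.1) :=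
    fun i => by rw [hZ, top, top, List.map_append, List.map_append, hmap]
  have hlen : ∀ i, (top D U (X' i)).length = Z.length := fun i => by
    simpa using congrArg List.length (hmap' i)
  have hget : ∀ i k, ((top D U (X' i)).getD k 0).1 = (Z.getD k 0).1 := fun i k => by
    have h1 := List.getD_map (top D U (X' i)) 0 (n := k) fun x => (x.1, x.2.1)
    have h2 := List.getD_map Z 0 (n := k) fun x => (x.1, x.2.1)
    rw [hmap', h2] at h1
    exact (congrArg Prod.fst h1).symm
  obtain ⟨π, hπ⟩ := hall (κ := ι × Fin Z.length) (fun x => (Z.getD x.2 0).2.2)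
    (fun x => ((top D U (X' x.1)).getD x.2 0).2.2) fun y => by
      rw [card_prod fun _ (k : Fin Z.length) => y ≤ (Z.getD k 0).2.2,
        card_prod fun i (k : Fin Z.length) => y ≤ ((top D U (X' i)).getD k 0).2.2]
      refine sum_le_sum fun i _ => ?_
      have a1 := countP_eq_card (fun x => decide (y ≤ x.2.2)) (rfl : Z.length = _)
      have a2 := countP_eq_card (fun x => decide (y ≤ x.2.2)) (hlen i)
      simp only [decide_eq_true_eq] at a1 a2
      rw [← a1, ← a2, hZ, cnt_top, cnt_top]
      exact Nat.add_le_add_left (hA i y) _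
  obtain ⟨ρ, hρ⟩ := hall (κ := ι × Fin Z.length)
    (fun x => ((top D U (X' x.1)).getD x.2 0).1 + ((top D U (X' x.1)).getD x.2 0).2.2)
    (fun x => (Z.getD x.2 0).1 + (Z.getD x.2 0).2.1) fun y => by
      rw [card_prod fun _ (k : Fin Z.length) => y ≤ (Z.getD k 0).1 + (Z.getD k 0).2.1,
        card_prod fun i (k : Fin Z.length) => y ≤ ((top D U (X' i)).getD k 0).1 +
          ((top D U (X' i)).getD k 0).2.2]
      have a1 := countP_eq_card (fun x => decide (y ≤ x.1 + x.2.1)) (rfl : Z.length = _)
      have a2 := fun i => countP_eq_card (fun x => decide (y ≤ x.1 + x.2.2)) (hlen i)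
      simp only [decide_eq_true_eq] at a1 a2
      simp only [← a1, ← a2]
      rcases Nat.eq_zero_or_pos y with rfl | hy
      · simp [hlen]
      have a3 : ∀ i, (X' i).countP (fun x => decide (y ≤ x.1 + x.2.1)) =
          X.countP fun x => decide (y ≤ x.1 + x.2.1) := fun i => by
        have := congrArg (List.countP fun p : ℕ × ℕ => decide (y ≤ p.1 + p.2)) (hmap i)
        rwa [List.countP_map, List.countP_map] at this
      simp only [hZ, cnt_top, decide_eq_false (show ¬ y ≤ 0 + 0 by omega), Bool.toNat_false,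
        mul_zero, zero_add]
      by_cases hU : y ≤ U
      · have a4 : ∀ i, (X' i).countP (fun x => decide (y ≤ x.1 + x.2.2)) ≤
            X.countP (fun x => decide (y ≤ x.1 + x.2.1)) + cL (y - 1) (X' i) := fun i => by
          rw [← a3 i]
          simpa [cL] using No.cnt_union (k := 1) (Y := X' i)
            (P := fun x => decide (y ≤ x.1 + x.2.2)) (R := fun x => decide (y ≤ x.1 + x.2.1))
            (S := fun _ x => decide (x.1 + x.2.1 ≤ y - 1 ∧ y - 1 < x.1 + x.2.2)) fun x _ h => by
              simp only [decide_eq_true_eq] at h ⊢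
              by_cases h' : y ≤ x.1 + x.2.1
              · exact Or.inl h'
              · exact Or.inr ⟨0, one_pos, by omega⟩
        refine le_trans (sum_le_sum fun i _ => a4 i) ?_
        have := hL (y - 1)
        simp only [sum_add_distrib, sum_const, card_univ, smul_eq_mul, decide_eq_true hU,
          Bool.toNat_true, mul_one]
        omega
      · rw [sum_eq_zero fun i _ => List.countP_eq_zero.2 fun x hx => ?_]
        · exact Nat.zero_le _
        have := hin i x hx
        simp only [decide_eq_true_eq]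
        omega
  refine ⟨π.symm, ρ, fun x => ?_⟩
  have h1 := hπ (π.symm x)
  have h2 := hρ x
  simp only [Equiv.apply_symm_apply, hget] at h1 h2
  omega

theorem size_bounds {Z : List Nd} {U : ℕ} (hU : 0 < U)
    (h : ∀ x ∈ Z, x.1 + x.2.1 ≤ U ∧ x.2.2 ≤ U) : ∀ q ∈ items U Z, 1 / 4 < q ∧ q < 1 / 2 := by
  have key : ∀ a : ℕ, a ≤ U → 0 ≤ (a : ℚ) / U ∧ (a : ℚ) / U ≤ 1 := fun a ha =>
    ⟨by positivity, div_le_one_of_le₀ (by exact_mod_cast ha) (by positivity)⟩
  intro q hq
  simp only [items, List.mem_append, List.mem_map] at hq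
  rcases hq with ⟨x, hx, rfl⟩ | ⟨x, hx, rfl⟩ | ⟨x, hx, rfl⟩
  · have := key x.1 (by have := h x hx; omega)
    constructor <;> linarith [this.1, this.2]
  · have := key _ (h x hx).1
    constructor <;> linarith [this.1, this.2]
  · have := key _ (h x hx).2
    constructor <;> linarith [this.1, this.2]

end Top

theorem top_bounds {X : List Nd} {U D l : ℕ} (hin : Ins 1 l 1 X) (hl : 1 + l ≤ U) :
    ∀ q ∈ items U (top D U X), 1 / 4 < q ∧ q < 1 / 2 :=
  Top.size_bounds (by omega) fun x hx => by
    rcases Top.mem_top hx with rfl | h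
    · simp
    · have := hin x h; omega

/-- soundness -/
theorem opt_gt {X : List Nd} {U D J T l c : ℕ} (hin : Ins 1 l 1 X) (hl : 1 + l ≤ U)
    (hD : ∀ t, cD t X ≤ 1) (hno : NoP J T D 1 l 1 X) (hJ : D + 18 * c + 1 ≤ J) (hJ' : J < 2 * D)
    (hT : D + 18 * c ≤ T) : (top D U X).length + c < OPT (items U (top D U X)).get := by
  classical
  obtain ⟨e, he⟩ := Top.exists_equiv U (top D U X)
  have hU : (0 : ℚ) < U := by exact_mod_cast (show 0 < U by omega)
  obtain ⟨f, hf⟩ := OPT_spec (items U (top D U X)).get fun i => by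
    linarith [(top_bounds hin hl _ (List.get_mem _ i)).2]
  obtain ⟨B, _, i, j, m, hi, hj, hm, hb, hcard⟩ := standard_bins
    (fun k : Fin (top D U X).length => (((top D U X).getD k 0).1 : ℚ) / U)
    (fun k => ((((top D U X).getD k 0).1 + ((top D U X).getD k 0).2.1 : ℕ) : ℚ) / U)
    (fun k => (((top D U X).getD k 0).2.2 : ℚ) / U) (fun i => by positivity)
    (fun i => div_le_one_of_le₀ (by
      rcases Top.mem_top (Top.getD_mem i) with h | h
      · rw [h]; simp
      · have := hin _ h
        exact_mod_cast (show _ ≤ U by omega)) hU.le) (fun i => by positivity) (fun y => f (e y)) (by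
      intro b
      refine le_trans (le_of_eq ?_) (hf b)
      exact Finset.sum_equiv e (fun i => by simp) fun i _ => (he i).symm)
  have := Top.no_match (W := 18 * c) rfl hin hD hno hJ hJ' hT i j m hi hj hm fun b => by
    have := hb b
    rw [← add_div, div_le_div_iff_of_pos_right hU] at this
    exact_mod_cast this
  omega

/-- a family of bins which covers every item as often as `ι` has elements -/
def Cov (ι : Type) [Fintype ι] {n : ℕ} (a : Fin n → ℚ) (N : ℕ) : Prop :=
  ∃ B : ι × Fin N → Finset (Fin n), (∀ x, ∑ i ∈ B x, a i ≤ 1) ∧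
    ∀ i, Fintype.card ι ≤ (univ.filter fun x => i ∈ B x).card

/-- completeness -/
theorem exists_cover {ι : Type} [Fintype ι] {X : List Nd} {X' : ι → List Nd} {U D l : ℕ}
    (hmap : ∀ i, (X' i).map (fun x => (x.1, x.2.1)) = X.map fun x => (x.1, x.2.1))
    (hin : ∀ i, Ins 1 l 1 (X' i)) (hl : 1 + l ≤ U) (hA : ∀ i y, cA y X ≤ cA y (X' i))
    (hL : ∀ t, ∑ i, cL t (X' i) ≤ Fintype.card ι * D) :
    Cov ι (items U (top D U X)).get (top D U X).length := by
  classical
  obtain ⟨e, he⟩ := Top.exists_equiv U (top D U X)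
  obtain ⟨π, ρ, h⟩ := Top.yes_match rfl hmap hin hl hA hL
  have hU : (0 : ℚ) < U := by exact_mod_cast (show 0 < U by omega)
  refine ⟨fun x => ({Sum.inl x.2, Sum.inr (Sum.inl (ρ x).2), Sum.inr (Sum.inr (π x).2)} :
    Finset _).map e.toEmbedding, fun x => ?_, fun i => ?_⟩
  · rw [sum_map]
    simp only [Equiv.coe_toEmbedding, he]
    rw [sum_insert (by simp), sum_pair (by simp)]
    simp only [size]
    have h1 : (((top D U X).getD x.2 0).1 : ℚ) / U + (((top D U X).getD (π x).2 0).2.2 : ℚ) / U ≤
        ((((top D U X).getD (ρ x).2 0).1 + ((top D U X).getD (ρ x).2 0).2.1 : ℕ) : ℚ) / U := by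
      rw [← add_div, div_le_div_iff_of_pos_right hU]
      exact_mod_cast h x
    linarith
  · obtain ⟨y, rfl⟩ := e.surjective i
    have hm : ∀ S : Finset _, e y ∈ S.map e.toEmbedding ↔ y ∈ S := fun S => mem_map' e.toEmbedding
    simp only [hm]
    rcases y with k | k | k
    · refine (Top.card_fiber (Equiv.refl _) k).trans (card_le_card fun x hx => ?_)
      have := (mem_filter.1 hx).2
      simp only [Equiv.refl_apply] at this
      simp [this]
    · refine (Top.card_fiber ρ k).trans (card_le_card fun x hx => ?_)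
      simp only [mem_filter, mem_univ, true_and] at hx ⊢
      simp [hx]
    · refine (Top.card_fiber π k).trans (card_le_card fun x hx => ?_)
      simp only [mem_filter, mem_univ, true_and] at hx ⊢
      simp [hx]

theorem opt_le_of_cover {n N : ℕ} (a : Fin n → ℚ) (ha : ∀ i, 0 ≤ a i) (B : Fin N → Finset (Fin n))
    (hB : ∀ x, ∑ i ∈ B x, a i ≤ 1) (hc : ∀ i, ∃ x, i ∈ B x) : OPT a ≤ N := by
  choose f hf using hc
  refine Nat.sInf_le ⟨f, fun b => le_trans (sum_le_sum_of_subset_of_nonneg (fun i hi => ?_)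
    fun i _ _ => ha i) (hB b)⟩
  rw [← (mem_filter.1 hi).2]
  exact hf i

theorem Cov.opt_le {n N : ℕ} {a : Fin n → ℚ} (h : Cov Unit a N) (ha : ∀ i, 0 ≤ a i) :
    OPT a ≤ N := by
  obtain ⟨B, h1, h2⟩ := h
  refine opt_le_of_cover _ ha (fun k => B ((), k)) (fun _ => h1 _) fun i => ?_
  obtain ⟨x, hx⟩ := card_pos.1 (lt_of_lt_of_le (by simp) (h2 i))
  exact ⟨x.2, (mem_filter.1 hx).2⟩

theorem Cov.lp_le {n N : ℕ} {a : Fin n → ℚ} (h : Cov Bool a N) : LP a ≤ N := by
  obtain ⟨B, h1, h2⟩ := h
  have := LP_le_of_double_cover _ B h1 (by simpa using h2)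
  simp only [Fintype.card_prod, Fintype.card_bool, Fintype.card_fin] at this
  push_cast at this
  linarith

theorem opt_le {X X' : List Nd} {U D l : ℕ}
    (hmap : X'.map (fun x => (x.1, x.2.1)) = X.map fun x => (x.1, x.2.1)) (hin0 : Ins 1 l 1 X)
    (hin : Ins 1 l 1 X') (hl : 1 + l ≤ U) (hA : ∀ y, cA y X ≤ cA y X') (hL : ∀ t, cL t X' ≤ D) :
    OPT (items U (top D U X)).get ≤ (top D U X).length :=
  (exists_cover (ι := Unit) (X' := fun _ => X') (D := D) (fun _ => hmap)
    (fun _ => hin) hl (fun _ => hA) (by simpa using hL)).opt_le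
    fun i => by linarith [(top_bounds hin0 hl _ (List.get_mem _ i)).1]

theorem cov_two {X X' : List Nd} {U D l : ℕ}
    (hmap : X'.map (fun x => (x.1, x.2.1)) = X.map fun x => (x.1, x.2.1)) (hin0 : Ins 1 l 1 X)
    (hin : Ins 1 l 1 X') (hl : 1 + l ≤ U) (hA : ∀ y, cA y X ≤ cA y X')
    (hL : ∀ t, cL t X + cL t X' ≤ 2 * D) :
    Cov Bool (items U (top D U X)).get (top D U X).length :=
  exists_cover (ι := Bool) (X := X) (X' := fun b => bif b then X else X')
    (D := D) (fun b => by cases b; exacts [hmap, rfl]) (fun b => by cases b; exacts [hin, hin0]) hl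
    (fun b => by cases b; exacts [hA, fun _ => le_rfl]) (by simpa using hL)

end Vale.Agent.P302H
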