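import Vale.Agent.P302H.No

/-!
P302, additive hardness: completeness of the generator.
-/

namespace Vale.Agent.P302H

open Finset

/-- number of nodes whose own interval contains `t` -/
def cD (t : ℕ) (X : List Nd) : ℕ := X.countP fun x => decide (x.1 ≤ t ∧ t < x.1 + x.2.1)

/-- number of nodes whose length item reaches over `t`, beyond the right end -/
def cL (t : ℕ) (X : List Nd) : ℕ := X.countP fun x => decide (x.1 + x.2.1 ≤ t ∧ t < x.1 + x.2.2)

namespace Yes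

theorem uniq {lo w i j t : ℕ} (h1 : lo + i * w ≤ t) (h2 : t < lo + (j + 1) * w) : i ≤ j := by
  by_contra h
  have : (j + 1) * w ≤ i * w := Nat.mul_le_mul_right _ (by omega)
  omega

/-- the predicate only holds for nodes around `t` -/
def Loc (t : ℕ) (P : Nd → Bool) : Prop :=
  ∀ x, P x = true → x.1 ≤ t ∧ (t < x.1 + x.2.1 ∨ t < x.1 + x.2.2)

theorem locD (t : ℕ) : Loc t fun x => decide (x.1 ≤ t ∧ t < x.1 + x.2.1) := fun x h => by
  have := of_decide_eq_true h; omega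

theorem locL (t : ℕ) : Loc t fun x => decide (x.1 + x.2.1 ≤ t ∧ t < x.1 + x.2.2) := fun x h => by
  have := of_decide_eq_true h; omega

theorem loc_zero {t u l α : ℕ} {P : Nd → Bool} {Y : List Nd} (hP : Loc t P) (h : Ins u l α Y)
    (ht : ¬ (α ≤ t ∧ t < α + l)) : Y.countP P = 0 :=
  List.countP_eq_zero.2 fun x hx h1 => by
    have := h x hx
    have := hP x h1
    omega

theorem sum_le_single {k i₀ : ℕ} {F : ℕ → ℕ} (h : ∀ i < k, i ≠ i₀ → F i = 0) :
    ∑ i ∈ range k, F i ≤ F i₀ := by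
  by_cases hi : i₀ < k
  · rw [sum_eq_single i₀ (fun i hi' hne => h i (mem_range.1 hi') hne)
      fun h' => absurd (mem_range.2 hi) h']
  · rw [sum_eq_zero fun i hi' => h i (mem_range.1 hi') (by have := mem_range.1 hi'; omega)]
    exact Nat.zero_le _

theorem idx_eq {a η t p q : ℕ} (h1 : a + 2 * p * η ≤ t) (h2 : t < a + (2 * p + 2) * η)
    (h3 : a + 2 * q * η ≤ t) (h4 : t < a + (2 * q + 2) * η) : p = q :=
  le_antisymm (uniq (lo := a) (w := 2 * η) (t := t) (by nlinarith) (by nlinarith))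
    (uniq (lo := a) (w := 2 * η) (t := t) (by nlinarith) (by nlinarith))

theorem exists_idx (a η t : ℕ) :
    ∃ i₀, ∀ p, a + 2 * p * η ≤ t → t < a + (2 * p + 2) * η → p = i₀ := by
  by_cases h : ∃ q, a + 2 * q * η ≤ t ∧ t < a + (2 * q + 2) * η
  · obtain ⟨q, h3, h4⟩ := h
    exact ⟨q, fun p h1 h2 => idx_eq h1 h2 h3 h4⟩
  · exact ⟨0, fun p h1 h2 => absurd ⟨p, h1, h2⟩ h⟩

theorem rowL {k α η u t i₀ : ℕ} (pl : ℕ → Bool) {sub : ℕ → List Nd}
    (h0 : ∀ p, α + η + 2 * p * η ≤ t → t < α + η + (2 * p + 2) * η → p = i₀)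
    (h : ∀ i < k, Ins u η (α + (2 * i + 1) * η) (sub i)) :
    cL t (row k α η pl sub) ≤ (pl i₀).toNat + cL t (sub i₀) := by
  rw [cL, cnt_row]
  refine le_trans (sum_le_single (i₀ := i₀) fun i hi hne => ?_) (Nat.add_le_add_right ?_ _)
  · rw [loc_zero (locL t) (h i hi) fun h1 => hne (h0 i (by nlinarith [h1.1]) (by nlinarith [h1.2])),
      decide_eq_false fun h1 => hne (h0 i ?_ ?_)]
    · rfl
    · have := h1.1; simp only [nd] at this; omega
    · have := h1.2
      generalize pl i = b at this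
      cases b <;> simp only [nd, cond_true, cond_false] at this <;> nlinarith
  · cases hb : pl i₀
    · rw [decide_eq_false (by simp only [nd, cond_false]; omega)]
    · exact Bool.toNat_le _

theorem rowD {k α η u t : ℕ} (pl : ℕ → Bool) {sub : ℕ → List Nd}
    (h : ∀ i < k, Ins u η (α + (2 * i + 1) * η) (sub i)) (h' : ∀ i, cD t (sub i) ≤ 1) :
    cD t (row k α η pl sub) ≤ 1 := by
  obtain ⟨i₀, h0⟩ := exists_idx α η t
  rw [cD, cnt_row]
  by_cases hi₀ : i₀ < k
  · refine le_trans (sum_le_single (i₀ := i₀) fun i hi hne => ?_) ?_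
    · rw [loc_zero (locD t) (h i hi)
        fun h1 => hne (h0 i (by nlinarith [h1.1]) (by nlinarith [h1.2])),
        decide_eq_false fun h1 => hne (h0 i h1.1 ?_)]
      · rfl
      · have := h1.2; simp only [nd] at this; nlinarith
    · by_cases h1 : t < α + (2 * i₀ + 1) * η
      · rw [loc_zero (locD t) (h i₀ hi₀) (by omega)]
        exact Bool.toNat_le _
      · rw [decide_eq_false (by simp only [nd]; intro h2; apply h1; nlinarith [h2.2])]
        exact (Nat.zero_add _).trans_le (h' i₀)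
  · rw [sum_eq_zero fun i hi => ?_]
    · exact Nat.zero_le _
    have hne : i ≠ i₀ := by have := mem_range.1 hi; omega
    rw [loc_zero (locD t) (h i (mem_range.1 hi))
        fun h1 => hne (h0 i (by nlinarith [h1.1]) (by nlinarith [h1.2])),
        decide_eq_false fun h1 => hne (h0 i h1.1 ?_)]
    · rfl
    · have := h1.2; simp only [nd] at this; nlinarith

theorem rowD0 {k α η t p : ℕ} (pl : ℕ → Bool) (h1 : α + (2 * p + 1) * η ≤ t)
    (h2 : t < α + (2 * p + 2) * η) : cD t (row k α η pl fun _ => []) = 0 := by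
  rw [cD, cnt_row]
  refine sum_eq_zero fun i _ => ?_
  rw [decide_eq_false fun h3 => ?_]
  · rfl
  simp only [nd] at h3
  have : i = p := idx_eq (a := α) (η := η) h3.1 (by nlinarith [h3.2]) (by nlinarith) h2
  subst this
  nlinarith [h3.2]

variable {n N G m Ω u α t : ℕ} {P1 P1' : ℕ → Bool} {P2 P2' : ℕ → Bool → Bool}
  {g g' : ℕ → ℕ → List Nd}

/-- the cells are disjoint -/
theorem cell_eq {γ γ' : ℕ} {b b' : Bool} (hγ : γ < G) (hγ' : γ' < G)
    (h : cs n G m Ω u α γ b ≤ t ∧ t < cs n G m Ω u α γ b + cl G m Ω u)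
    (h' : cs n G m Ω u α γ' b' ≤ t ∧ t < cs n G m Ω u α γ' b' + cl G m Ω u) : γ = γ' ∧ b = b' := by
  have q := cell_in (n := n) (m := m) (Ω := Ω) (u := u) (α := α) hγ b
  have q' := cell_in (n := n) (m := m) (Ω := Ω) (u := u) (α := α) hγ' b'
  have hp : par n γ b = par n γ' b' :=
    idx_eq (a := α) (η := e1 G m Ω u) (t := t) (by nlinarith [q.1, h.1]) (by omega)
      (by nlinarith [q'.1, h'.1]) (by omega)
  rw [cs] at h h'
  rw [hp] at h
  have a1 := uniq (j := 2 * γ' + b'.toNat) h.1 (by nlinarith [h'.2])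
  have a2 := uniq (j := 2 * γ + b.toNat) h'.1 (by nlinarith [h.2])
  cases b <;> cases b' <;> simp at a1 a2 ⊢ <;> omega

theorem runs_zero {P : Nd → Bool} (hP : Loc t P) (hΩ : 0 < Ω) (hg : ∀ u α, Ins u (u * Ω) α (g u α))
    (h : ¬ ∃ γ < G, ∃ b, cs n G m Ω u α γ b ≤ t ∧ t < cs n G m Ω u α γ b + cl G m Ω u) :
    (stage n N G m Ω u α P1 P2 g).countP P = (row N α (e1 G m Ω u) P1 fun _ => []).countP P := by
  rw [cnt_stage, sum_eq_zero, Nat.add_zero]
  intro γ hγ
  have := fun b => loc_zero hP (ins_run' (n := n) (m := m) (u := u) (α := α) (P2 := P2) hΩ hg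
    (mem_range.1 hγ) b) fun h1 => h ⟨γ, mem_range.1 hγ, b, h1⟩
  rw [this, this, Nat.add_zero]

theorem runs_le {P : Nd → Bool} {γ : ℕ} {b : Bool} (hP : Loc t P) (hΩ : 0 < Ω)
    (hg : ∀ u α, Ins u (u * Ω) α (g u α)) (hγ : γ < G)
    (h : cs n G m Ω u α γ b ≤ t ∧ t < cs n G m Ω u α γ b + cl G m Ω u) :
    (stage n N G m Ω u α P1 P2 g).countP P ≤ (row N α (e1 G m Ω u) P1 fun _ => []).countP P +
      (run n G m Ω u α P2 g γ b).countP P := by
  rw [cnt_stage]
  have key : ∀ γ' < G, ∀ b', ¬ (γ' = γ ∧ b' = b) → (run n G m Ω u α P2 g γ' b').countP P = 0 :=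
    fun γ' hγ' b' hne => loc_zero hP (ins_run' hΩ hg hγ' b') fun h1 => hne (cell_eq hγ' hγ h1 h)
  refine Nat.add_le_add_left (le_trans (sum_le_single (i₀ := γ) fun i hi hne => ?_) ?_) _
  · rw [key i hi _ fun h => hne h.1, key i hi _ fun h => hne h.1]
  · cases b
    · rw [key γ hγ true (by simp), Nat.zero_add]
    · rw [key γ hγ false (by simp), Nat.add_zero]

theorem ins_copy (hΩ : 0 < Ω) (hg : ∀ u α, Ins u (u * Ω) α (g u α)) (γ : ℕ) (b : Bool) :
    ∀ i < m, Ins 0 (e2 m Ω u γ) (cs n G m Ω u α γ b + (2 * i + 1) * e2 m Ω u γ)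
      (g (un m Ω u γ b i) (st n G m Ω u α γ b i)) := fun _ hi =>
  (hg _ _).mono (Nat.zero_le _) le_rfl (Nat.add_le_add_left (un_mul_le hΩ hi) _)

theorem stageD (hΩ : 0 < Ω) (hg : ∀ u α, Ins u (u * Ω) α (g u α)) (ih : ∀ u α, cD t (g u α) ≤ 1) :
    cD t (stage n N G m Ω u α P1 P2 g) ≤ 1 := by
  by_cases h : ∃ γ < G, ∃ b, cs n G m Ω u α γ b ≤ t ∧ t < cs n G m Ω u α γ b + cl G m Ω u
  · obtain ⟨γ, hγ, b, h⟩ := h
    have q := cell_in (n := n) (m := m) (Ω := Ω) (u := u) (α := α) hγ b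
    have a1 := rowD0 (k := N) P1 (q.1.trans h.1) (h.2.trans_le q.2)
    have a2 : cD t (run n G m Ω u α P2 g γ b) ≤ 1 :=
      rowD _ (ins_copy hΩ hg γ b) fun _ => ih _ _
    have a3 := runs_le (N := N) (P1 := P1) (P2 := P2) (locD t) hΩ hg hγ h
    simp only [cD] at a1 a2 ⊢
    omega
  · rw [cD, runs_zero (locD t) hΩ hg h]
    exact rowD (u := 0) _ (fun _ _ _ h => by simp at h) fun _ => by simp [cD]

theorem stageL {c : ℕ} (hΩ : 0 < Ω) (hg : ∀ u α, Ins u (u * Ω) α (g u α))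
    (hg' : ∀ u α, Ins u (u * Ω) α (g' u α))
    (H : ∀ γ b, (P1 (par n γ b)).toNat + (P2 γ b).toNat + ((P1' (par n γ b)).toNat +
      (P2' γ b).toNat) ≤ 2) (ih : ∀ u α, cL t (g u α) + cL t (g' u α) ≤ c) :
    cL t (stage n N G m Ω u α P1 P2 g) + cL t (stage n N G m Ω u α P1' P2' g') ≤ c + 2 := by
  have hrow : ∀ (P : ℕ → Bool) (i₀ : ℕ), (∀ p, α + e1 G m Ω u + 2 * p * e1 G m Ω u ≤ t →
      t < α + e1 G m Ω u + (2 * p + 2) * e1 G m Ω u → p = i₀) →
      cL t (row N α (e1 G m Ω u) P fun _ => []) ≤ (P i₀).toNat := fun P i₀ h0 => by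
    simpa [cL] using rowL (k := N) (u := 0) P (sub := fun _ => []) h0 fun _ _ _ h => by simp at h
  by_cases h : ∃ γ < G, ∃ b, cs n G m Ω u α γ b ≤ t ∧ t < cs n G m Ω u α γ b + cl G m Ω u
  · obtain ⟨γ, hγ, b, h⟩ := h
    have q := cell_in (n := n) (m := m) (Ω := Ω) (u := u) (α := α) hγ b
    have h0 : ∀ p, α + e1 G m Ω u + 2 * p * e1 G m Ω u ≤ t →
        t < α + e1 G m Ω u + (2 * p + 2) * e1 G m Ω u → p = par n γ b := fun p h1 h2 =>
      idx_eq h1 h2 (by nlinarith [q.1, h.1]) (by nlinarith [q.2, h.2])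
    obtain ⟨i₀, hi₀⟩ := exists_idx (cs n G m Ω u α γ b + e2 m Ω u γ) (e2 m Ω u γ) t
    have a1 := hrow P1 _ h0
    have a1' := hrow P1' _ h0
    have a2 : cL t (run n G m Ω u α P2 g γ b) ≤ _ := rowL _ hi₀ (ins_copy hΩ hg γ b)
    have a2' : cL t (run n G m Ω u α P2' g' γ b) ≤ _ := rowL _ hi₀ (ins_copy hΩ hg' γ b)
    have a3 := runs_le (N := N) (P1 := P1) (P2 := P2) (locL t) hΩ hg hγ h
    have a3' := runs_le (N := N) (P1 := P1') (P2 := P2') (locL t) hΩ hg' hγ h
    have a4 := ih (un m Ω u γ b i₀) (st n G m Ω u α γ b i₀)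
    have a5 := H γ b
    simp only [cL] at a1 a1' a2 a2' a4 ⊢
    omega
  · obtain ⟨i₀, h0⟩ := exists_idx (α + e1 G m Ω u) (e1 G m Ω u) t
    have a1 := hrow P1 _ h0
    have a1' := hrow P1' _ h0
    have a2 := Bool.toNat_le (P1 i₀)
    have a2' := Bool.toNat_le (P1' i₀)
    rw [cL, cL, runs_zero (locL t) hΩ hg h, runs_zero (locL t) hΩ hg' h]
    simp only [cL] at a1 a1'
    omega

theorem cA_row (y k a η : ℕ) (pl : ℕ → Bool) (sub : ℕ → List Nd) :
    cA y (row k a η pl sub) = k * (decide (y ≤ η)).toNat +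
      (List.range k).countP pl * (decide (η < y ∧ y ≤ 3 * η)).toNat +
        ∑ i ∈ range k, cA y (sub i) := by
  rw [cA, cnt_row]
  induction k with
  | zero => simp
  | succ k ih =>
    rw [List.range_succ, List.countP_append, sum_range_succ, sum_range_succ, ih]
    have : (decide (y ≤ (nd (a + 2 * k * η) η (pl k)).2.2)).toNat = (decide (y ≤ η)).toNat +
        [k].countP pl * (decide (η < y ∧ y ≤ 3 * η)).toNat := by
      rcases Nat.lt_or_ge η y with h1 | h1
      · by_cases h2 : y ≤ 3 * η <;> cases h : pl k <;> simp [nd, h, h1, h2, not_le.2 h1]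
      · have h2 : y ≤ 3 * η := by omega
        cases h : pl k <;> simp [nd, h, h1, h2, not_lt.2 h1]
    rw [this, cA]
    ring

theorem countP_const (k : ℕ) (b : Bool) : (List.range k).countP (fun _ => b) = k * b.toNat := by
  cases b <;> simp

theorem stageA {y : ℕ} (h1 : (List.range N).countP P1 ≤ (List.range N).countP P1')
    (h2 : ∀ γ, (P2 γ true).toNat + (P2 γ false).toNat ≤ (P2' γ true).toNat + (P2' γ false).toNat)
    (ih : ∀ u α, cA y (g u α) ≤ cA y (g' u α)) :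
    cA y (stage n N G m Ω u α P1 P2 g) ≤ cA y (stage n N G m Ω u α P1' P2' g') := by
  rw [cA, cA, cnt_stage, cnt_stage]
  refine Nat.add_le_add ?_ (sum_le_sum fun γ _ => ?_)
  · change cA y _ ≤ cA y _
    rw [cA_row, cA_row]
    gcongr
  · change cA y _ + cA y _ ≤ cA y _ + cA y _
    simp only [run, cA_row, countP_const]
    have a1 := fun b => sum_le_sum (s := range m) fun i _ =>
      ih (un m Ω u γ b i) (st n G m Ω u α γ b i)
    have a2 := Nat.mul_le_mul_right (decide (e2 m Ω u γ < y ∧ y ≤ 3 * e2 m Ω u γ)).toNat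
      (Nat.mul_le_mul_left m (h2 γ))
    have := a1 true
    have := a1 false
    simp only [mul_add, add_mul] at a2
    omega

theorem rowM {β : Type} (φ : ℕ → ℕ → β) (k a η : ℕ) (pl pl' : ℕ → Bool) {sub sub' : ℕ → List Nd}
    (h : ∀ i, (sub i).map (fun x => φ x.1 x.2.1) = (sub' i).map fun x => φ x.1 x.2.1) :
    (row k a η pl sub).map (fun x => φ x.1 x.2.1) =
      (row k a η pl' sub').map fun x => φ x.1 x.2.1 := by
  simp only [row, List.map_flatMap, List.map_cons, h, nd]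

end Yes

variable {n : ℕ} (J : ℕ) (P1 P1' : ℕ → Bool) (P2 P2' : ℕ → Bool → Bool)

theorem cD_gen (hn : 0 < n) (t : ℕ) : ∀ h T u α, cD t (gen n J P1 P2 h T u α) ≤ 1
  | 0, _, _, _ => by simp [cD, gen]
  | h + 1, _, _, _ => Yes.stageD (om_pos hn J h _) (ins_gen hn J P1 P2 h _) (cD_gen hn t h _)

theorem cL_gen (hn : 0 < n) (H : ∀ γ b, (P1 (par n γ b)).toNat + (P2 γ b).toNat +
    ((P1' (par n γ b)).toNat + (P2' γ b).toNat) ≤ 2) (t : ℕ) :
    ∀ h T u α, cL t (gen n J P1 P2 h T u α) + cL t (gen n J P1' P2' h T u α) ≤ 2 * h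
  | 0, _, _, _ => by simp [cL, gen]
  | h + 1, _, _, _ => Yes.stageL (om_pos hn J h _) (ins_gen hn J P1 P2 h _)
      (ins_gen hn J P1' P2' h _) H (cL_gen hn H t h _)

theorem cA_gen (h1 : ∀ Q, (List.range (Q * n)).countP P1 ≤ (List.range (Q * n)).countP P1')
    (h2 : ∀ γ, (P2 γ true).toNat + (P2 γ false).toNat ≤ (P2' γ true).toNat + (P2' γ false).toNat)
    (y : ℕ) : ∀ h T u α, cA y (gen n J P1 P2 h T u α) ≤ cA y (gen n J P1' P2' h T u α)
  | 0, _, _, _ => le_rfl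
  | h + 1, _, _, _ => Yes.stageA (h1 _) h2 (cA_gen h1 h2 y h _)

theorem map_gen {β : Type} (φ : ℕ → ℕ → β) : ∀ h T u α,
    (gen n J P1 P2 h T u α).map (fun x => φ x.1 x.2.1) =
      (gen n J P1' P2' h T u α).map fun x => φ x.1 x.2.1
  | 0, _, _, _ => rfl
  | h + 1, T, u, α => by
    simp only [gen, stage, List.map_append, List.map_flatMap, run]
    rw [Yes.rowM φ _ _ _ P1 P1' fun _ => rfl]
    congr 2
    funext γ
    rw [Yes.rowM φ _ _ _ _ (fun _ => P2' γ true) fun _ => map_gen φ h _ _ _,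
      Yes.rowM φ _ _ _ (fun _ => P2 γ false) (fun _ => P2' γ false) fun _ => map_gen φ h _ _ _]

end Vale.Agent.P302H
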